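import Vale.Agent.P050.H148.Spec

set_option linter.all false

/-!
Closed walks and power sums of eigenvalues.
-/

namespace Vale.Agent.P050.H148

open Finset

section cyc

variable {I : Type*} [Fintype I] [DecidableEq I]
variable {M : I → I → ℝ} {l : I → ℝ} {u : I → I → ℝ}

theorem const_of_shift {k : ℕ} [NeZero k] (J : ZMod k → I) (h : ∀ i, J i = J (i - 1)) (i : ZMod k) :
    J i = J 0 := by
  have h1 : ∀ n : ℕ, J (n : ZMod k) = J 0 := by
    intro n
    induction n with
    | zero => simp
    | succ n ih =>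
      rw [h]
      push_cast
      rw [add_sub_cancel_right, ih]
  have := h1 (ZMod.val i)
  rwa [ZMod.natCast_zmod_val] at this

theorem Eig.cyc (h : Eig M l u) (k : ℕ) [NeZero k] :
    ∑ w : ZMod k → I, ∏ i, M (w i) (w (i + 1)) = ∑ i, l i ^ k := by
  classical
  have h1 : ∀ w : ZMod k → I, ∏ i, M (w i) (w (i + 1)) =
      ∑ J : ZMod k → I, (∏ i, l (J i)) * ∏ i, (u (J i) (w i) * u (J (i - 1)) (w i)) := by
    intro w
    simp only [h.eq]
    rw [Finset.prod_univ_sum, Fintype.piFinset_univ]
    refine sum_congr rfl fun J _ => ?_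
    rw [prod_mul_distrib, prod_mul_distrib, prod_mul_distrib]
    congr 2
    have := Equiv.prod_comp (Equiv.subRight (1 : ZMod k)) (fun i => u (J i) (w (i + 1)))
    simp only [Equiv.subRight_apply, sub_add_cancel] at this
    exact this.symm
  simp only [h1]
  rw [sum_comm]
  have h2 : ∀ J : ZMod k → I, ∑ w : ZMod k → I,
      (∏ i, l (J i)) * ∏ i, (u (J i) (w i) * u (J (i - 1)) (w i)) =
      if ∀ i ∈ (univ : Finset (ZMod k)), J i = J (i - 1) then ∏ i, l (J i) else 0 := by
    intro J
    rw [← mul_sum]
    have h3 : ∑ w : ZMod k → I, ∏ i, (u (J i) (w i) * u (J (i - 1)) (w i)) =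
        ∏ i, ∑ e, u (J i) e * u (J (i - 1)) e := by
      rw [Finset.prod_univ_sum, Fintype.piFinset_univ]
    rw [h3]
    simp only [h.orth]
    rw [Finset.prod_ite_zero]
    simp
  simp only [h2]
  rw [← sum_filter]
  have h4 : (univ.filter fun J : ZMod k → I => ∀ i ∈ (univ : Finset (ZMod k)), J i = J (i - 1)) =
      univ.image (fun c : I => fun _ : ZMod k => c) := by
    ext J
    simp only [mem_filter, mem_univ, true_and, forall_const, mem_image]
    constructor
    · intro hJ
      exact ⟨J 0, funext fun i => (const_of_shift J hJ i).symm⟩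
    · rintro ⟨c, rfl⟩ i
      rfl
  rw [h4, sum_image]
  · refine sum_congr rfl fun c _ => ?_
    rw [prod_const, card_univ, ZMod.card]
  · intro a _ b _ hab
    exact congrFun hab 0

end cyc

end Vale.Agent.P050.H148
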