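import Vale.Agent.P050.TDefs

/-!
Statement-level definitions.
-/

namespace Vale.Agent.P050.H148

/-- The graph with vertices `(i, false)` and `(i, true)`, `i` modulo `k`, in which `(i, false)` and
`(j, true)` are adjacent when `j - i` is `0`, `1` or `-1`. For odd `k ≥ 3` it is the Moebius ladder
with `2 k` vertices; for `k = 5` it is `K_{5,5}` minus a cycle of length 10. -/
def moebiusLadder (k : ℕ) : SimpleGraph (ZMod k × Bool) where
  Adj u v := u.2 ≠ v.2 ∧ (u.1 = v.1 ∨ u.1 = v.1 + 1 ∨ v.1 = u.1 + 1)
  symm := ⟨fun u v h => ⟨h.1.symm, by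
    rcases h.2 with h | h | h
    · exact Or.inl h.symm
    · exact Or.inr (Or.inr h)
    · exact Or.inr (Or.inl h)⟩⟩
  loopless := ⟨fun u h => h.1 rfl⟩

/-- `K_{5,5}` minus a cycle of length 10: the residues modulo 10, two of them being adjacent when
their difference is odd and they are not consecutive. -/
def K55minusC10 : SimpleGraph (ZMod 10) where
  Adj u v := (u - v).val % 2 = 1 ∧ u ≠ v + 1 ∧ v ≠ u + 1
  symm := ⟨by decide⟩
  loopless := ⟨by decide⟩

/-- The density of the Moebius ladder `moebiusLadder k` in a weighted graph: the mean, over all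
`x, y : ZMod k → X`, of the product of `W (x i) (y i) * W (x i) (y (i + 1)) * W (x (i + 1)) (y i)`
over `i` modulo `k`. -/
noncomputable def ladderDensity {X : Type*} [Fintype X] (W : X → X → ℝ) (k : ℕ) [NeZero k] : ℝ :=
  (∑ x : ZMod k → X, ∑ y : ZMod k → X,
    ∏ i, (W (x i) (y i) * (W (x i) (y (i + 1)) * W (x (i + 1)) (y i)))) /
      (Fintype.card X : ℝ) ^ (2 * k)

end Vale.Agent.P050.H148
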