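import Vale.Agent.P050.H148.Neg
import Mathlib.Algebra.Order.Chebyshev

set_option linter.all false

/-!
A lower bound for the distance of the smallest eigenvalue of the ladder operator from minus the
largest one.
-/

namespace Vale.Agent.P050.H148

open Finset

/-- positive part -/
def pp (z : ℝ) : ℝ := max z 0

theorem pp_nonneg (z : ℝ) : 0 ≤ pp z := le_max_right _ _

theorem le_pp (z : ℝ) : z ≤ pp z := le_max_left _ _

theorem pp_le_abs (z : ℝ) : pp z ≤ |z| := max_le (le_abs_self z) (abs_nonneg z)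

theorem two_pp (z : ℝ) : 2 * pp z = |z| + z := by
  unfold pp
  rcases le_total z 0 with h | h
  · rw [max_eq_right h, abs_of_nonpos h]; ring
  · rw [max_eq_left h, abs_of_nonneg h]; ring

theorem pp_of_nonneg {z : ℝ} (h : 0 ≤ z) : pp z = z := max_eq_left h

theorem pp_of_nonpos {z : ℝ} (h : z ≤ 0) : pp z = 0 := max_eq_right h

theorem pp_mul (a b : ℝ) : pp (a * b) = pp a * pp b + pp (-a) * pp (-b) := by
  rcases le_total a 0 with ha | ha <;> rcases le_total b 0 with hb | hb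
  · rw [pp_of_nonneg (mul_nonneg_of_nonpos_of_nonpos ha hb), pp_of_nonpos ha, pp_of_nonpos hb,
      pp_of_nonneg (neg_nonneg.mpr ha), pp_of_nonneg (neg_nonneg.mpr hb)]; ring
  · rw [pp_of_nonpos (mul_nonpos_of_nonpos_of_nonneg ha hb), pp_of_nonpos ha,
      pp_of_nonpos (neg_nonpos.mpr hb)]; ring
  · rw [pp_of_nonpos (mul_nonpos_of_nonneg_of_nonpos ha hb), pp_of_nonpos hb,
      pp_of_nonpos (neg_nonpos.mpr ha)]; ring
  · rw [pp_of_nonneg (mul_nonneg ha hb), pp_of_nonneg ha, pp_of_nonneg hb,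
      pp_of_nonpos (neg_nonpos.mpr ha)]; ring

theorem pair_bound {Y : Type*} [Fintype Y] (w α δ : Y → ℝ) (hw : ∀ y, 0 ≤ w y) {B : ℝ}
    (hα : ∀ y, |α y| ≤ B) (hδ : ∀ y, |δ y| ≤ B) :
    ∑ y, ∑ y', w y * w y' * (pp (α y) * pp (δ y) * (pp (-α y') * pp (-δ y')) +
      pp (-α y) * pp (-δ y) * (pp (α y') * pp (δ y'))) ≤
    B ^ 2 * ∑ y, ∑ y', w y * w y' * pp (α y * δ y') := by
  set P : ℝ := ∑ y, w y * (pp (α y) * pp (δ y)) with hP
  set N : ℝ := ∑ y, w y * (pp (-α y) * pp (-δ y)) with hN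
  set A : ℝ := ∑ y, w y * pp (α y) with hA
  set A' : ℝ := ∑ y, w y * pp (-α y) with hA'
  set D : ℝ := ∑ y, w y * pp (δ y) with hD
  set D' : ℝ := ∑ y, w y * pp (-δ y) with hD'
  have h1 : ∑ y, ∑ y', w y * w y' * (pp (α y) * pp (δ y) * (pp (-α y') * pp (-δ y')) +
      pp (-α y) * pp (-δ y) * (pp (α y') * pp (δ y'))) = P * N + N * P := by
    rw [hP, hN, sum_mul_sum, sum_mul_sum, ← sum_add_distrib]
    refine sum_congr rfl fun y _ => ?_
    rw [← sum_add_distrib]
    refine sum_congr rfl fun y' _ => by ring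
  have h2 : ∑ y, ∑ y', w y * w y' * pp (α y * δ y') = A * D + A' * D' := by
    rw [hA, hD, hA', hD', sum_mul_sum, sum_mul_sum, ← sum_add_distrib]
    refine sum_congr rfl fun y _ => ?_
    rw [← sum_add_distrib]
    refine sum_congr rfl fun y' _ => ?_
    rw [pp_mul]; ring
  have hB : ∀ z : ℝ, |z| ≤ B → pp z ≤ B ∧ pp (-z) ≤ B := fun z hz =>
    ⟨(pp_le_abs z).trans hz, (pp_le_abs (-z)).trans (by rwa [abs_neg])⟩
  have key : ∀ (a d : Y → ℝ), (∀ y, 0 ≤ a y) → (∀ y, a y ≤ B) → (∀ y, 0 ≤ d y) →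
      (∀ y, d y ≤ B) → (∑ y, w y * (a y * d y)) ^ 2 ≤
        B ^ 2 * ((∑ y, w y * a y) * (∑ y, w y * d y)) := by
    intro a d ha0 haB hd0 hdB
    have e1 : ∑ y, w y * (a y * d y) ≤ B * ∑ y, w y * a y := by
      rw [mul_sum]
      refine sum_le_sum fun y _ => ?_
      have := mul_le_mul_of_nonneg_left (hdB y) (mul_nonneg (hw y) (ha0 y))
      nlinarith
    have e2 : ∑ y, w y * (a y * d y) ≤ B * ∑ y, w y * d y := by
      rw [mul_sum]
      refine sum_le_sum fun y _ => ?_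
      have := mul_le_mul_of_nonneg_left (haB y) (mul_nonneg (hw y) (hd0 y))
      nlinarith
    have e0 : 0 ≤ ∑ y, w y * (a y * d y) :=
      sum_nonneg fun y _ => mul_nonneg (hw y) (mul_nonneg (ha0 y) (hd0 y))
    have e3 := mul_le_mul e1 e2 e0 (e0.trans e1)
    nlinarith
  have hP2 : P ^ 2 ≤ B ^ 2 * (A * D) :=
    key _ _ (fun y => pp_nonneg _) (fun y => (hB _ (hα y)).1) (fun y => pp_nonneg _)
      (fun y => (hB _ (hδ y)).1)
  have hN2 : N ^ 2 ≤ B ^ 2 * (A' * D') :=
    key _ _ (fun y => pp_nonneg _) (fun y => (hB _ (hα y)).2) (fun y => pp_nonneg _)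
      (fun y => (hB _ (hδ y)).2)
  rw [h1, h2]
  nlinarith [sq_nonneg (P - N)]

/-- the sign patterns of four numbers -/
theorem pattern (a b c d B : ℝ) (ha : |a| ≤ B) (hb : |b| ≤ B) (hc : |c| ≤ B) (hd : |d| ≤ B) :
    |a * b * (c * d)| ≤ B ^ 2 * pp (a * b) + B ^ 2 * pp (c * d) +
      (pp a * pp d * (pp (-c) * pp (-b)) + pp (-a) * pp (-d) * (pp c * pp b)) +
      (pp a * pp c * (pp (-d) * pp (-b)) + pp (-a) * pp (-c) * (pp d * pp b)) := by
  have n : ∀ z : ℝ, 0 ≤ pp z := pp_nonneg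
  have hB : 0 ≤ B := (abs_nonneg a).trans ha
  have h1 : 0 ≤ pp a * pp d * (pp (-c) * pp (-b)) + pp (-a) * pp (-d) * (pp c * pp b) := by
    have := n a; have := n b; have := n c; have := n d
    have := n (-a); have := n (-b); have := n (-c); have := n (-d); positivity
  have h2 : 0 ≤ pp a * pp c * (pp (-d) * pp (-b)) + pp (-a) * pp (-c) * (pp d * pp b) := by
    have := n a; have := n b; have := n c; have := n d
    have := n (-a); have := n (-b); have := n (-c); have := n (-d); positivity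
  have hab2 : |a * b| ≤ B ^ 2 := by
    rw [abs_mul, sq]; exact mul_le_mul ha hb (abs_nonneg _) hB
  have hcd2 : |c * d| ≤ B ^ 2 := by
    rw [abs_mul, sq]; exact mul_le_mul hc hd (abs_nonneg _) hB
  have h3 : 0 ≤ B ^ 2 * pp (a * b) := mul_nonneg (sq_nonneg _) (n _)
  have h4 : 0 ≤ B ^ 2 * pp (c * d) := mul_nonneg (sq_nonneg _) (n _)
  by_cases hab : 0 ≤ a * b
  · have e : |a * b * (c * d)| ≤ B ^ 2 * pp (a * b) := by
      rw [abs_mul, pp_of_nonneg hab, abs_of_nonneg hab, mul_comm]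
      exact mul_le_mul_of_nonneg_right hcd2 hab
    linarith
  by_cases hcd : 0 ≤ c * d
  · have e : |a * b * (c * d)| ≤ B ^ 2 * pp (c * d) := by
      rw [abs_mul, pp_of_nonneg hcd, abs_of_nonneg hcd]
      exact mul_le_mul_of_nonneg_right hab2 hcd
    linarith
  rw [not_le] at hab hcd
  have habcd : |a * b * (c * d)| = a * b * (c * d) := abs_of_pos (mul_pos_of_neg_of_neg hab hcd)
  rw [habcd]
  rcases mul_neg_iff.mp hab with ⟨ha', hb'⟩ | ⟨ha', hb'⟩ <;>
  rcases mul_neg_iff.mp hcd with ⟨hc', hd'⟩ | ⟨hc', hd'⟩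
  · -- a>0,b<0,c>0,d<0
    have e : pp a * pp c * (pp (-d) * pp (-b)) = a * b * (c * d) := by
      rw [pp_of_nonneg ha'.le, pp_of_nonneg hc'.le, pp_of_nonneg (neg_pos.mpr hd').le,
        pp_of_nonneg (neg_pos.mpr hb').le]; ring
    have e' : 0 ≤ pp (-a) * pp (-c) * (pp d * pp b) := by
      have := n b; have := n d; have := n (-a); have := n (-c); positivity
    linarith
  · have e : pp a * pp d * (pp (-c) * pp (-b)) = a * b * (c * d) := by
      rw [pp_of_nonneg ha'.le, pp_of_nonneg hd'.le, pp_of_nonneg (neg_pos.mpr hc').le,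
        pp_of_nonneg (neg_pos.mpr hb').le]; ring
    have e' : 0 ≤ pp (-a) * pp (-d) * (pp c * pp b) := by
      have := n b; have := n c; have := n (-a); have := n (-d); positivity
    linarith
  · have e : pp (-a) * pp (-d) * (pp c * pp b) = a * b * (c * d) := by
      rw [pp_of_nonneg hb'.le, pp_of_nonneg hc'.le, pp_of_nonneg (neg_pos.mpr hd').le,
        pp_of_nonneg (neg_pos.mpr ha').le]; ring
    have e' : 0 ≤ pp a * pp d * (pp (-c) * pp (-b)) := by
      have := n a; have := n d; have := n (-c); have := n (-b); positivity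
    linarith
  · have e : pp (-a) * pp (-c) * (pp d * pp b) = a * b * (c * d) := by
      rw [pp_of_nonneg hb'.le, pp_of_nonneg hd'.le, pp_of_nonneg (neg_pos.mpr hc').le,
        pp_of_nonneg (neg_pos.mpr ha').le]; ring
    have e' : 0 ≤ pp a * pp c * (pp (-d) * pp (-b)) := by
      have := n a; have := n c; have := n (-d); have := n (-b); positivity
    linarith

section quad

variable {X : Type*} [Fintype X]

/-- weight of a quadruple -/
def om (W : X → X → ℝ) (x x' y y' : X) : ℝ := W x y * W x' y' * (W x y' * W x' y)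

theorem quad_bound (W h : X → X → ℝ) (h0 : ∀ x y, 0 ≤ W x y) {B : ℝ} (hB : ∀ x y, |h x y| ≤ B) :
    ∑ x, ∑ x', ∑ y, ∑ y', om W x x' y y' * |h x y * h x' y' * (h x y' * h x' y)| ≤
      4 * B ^ 2 * ∑ x, ∑ x', ∑ y, ∑ y', om W x x' y y' * pp (h x y * h x' y') := by
  set S : ℝ := ∑ x, ∑ x', ∑ y, ∑ y', om W x x' y y' * pp (h x y * h x' y') with hS
  have hom : ∀ x x' y y', 0 ≤ om W x x' y y' := fun x x' y y' => by
    have := h0 x y; have := h0 x' y'; have := h0 x y'; have := h0 x' y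
    unfold om; positivity
  have step1 : ∑ x, ∑ x', ∑ y, ∑ y', om W x x' y y' * |h x y * h x' y' * (h x y' * h x' y)| ≤
      ∑ x, ∑ x', ∑ y, ∑ y', (B ^ 2 * (om W x x' y y' * pp (h x y * h x' y')) +
        B ^ 2 * (om W x x' y y' * pp (h x y' * h x' y)) +
        om W x x' y y' * (pp (h x y) * pp (h x' y) * (pp (-h x y') * pp (-h x' y')) +
          pp (-h x y) * pp (-h x' y) * (pp (h x y') * pp (h x' y'))) +
        om W x x' y y' * (pp (h x y) * pp (h x y') * (pp (-h x' y) * pp (-h x' y')) +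
          pp (-h x y) * pp (-h x y') * (pp (h x' y) * pp (h x' y')))) := by
    refine sum_le_sum fun x _ => sum_le_sum fun x' _ => sum_le_sum fun y _ =>
      sum_le_sum fun y' _ => ?_
    have := pattern (h x y) (h x' y') (h x y') (h x' y) B (hB _ _) (hB _ _) (hB _ _) (hB _ _)
    have := mul_le_mul_of_nonneg_left this (hom x x' y y')
    refine this.trans (le_of_eq ?_)
    ring
  have split : ∑ x, ∑ x', ∑ y, ∑ y', (B ^ 2 * (om W x x' y y' * pp (h x y * h x' y')) +
        B ^ 2 * (om W x x' y y' * pp (h x y' * h x' y)) +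
        om W x x' y y' * (pp (h x y) * pp (h x' y) * (pp (-h x y') * pp (-h x' y')) +
          pp (-h x y) * pp (-h x' y) * (pp (h x y') * pp (h x' y'))) +
        om W x x' y y' * (pp (h x y) * pp (h x y') * (pp (-h x' y) * pp (-h x' y')) +
          pp (-h x y) * pp (-h x y') * (pp (h x' y) * pp (h x' y')))) =
      B ^ 2 * S + B ^ 2 * (∑ x, ∑ x', ∑ y, ∑ y', om W x x' y y' * pp (h x y' * h x' y)) +
        (∑ x, ∑ x', ∑ y, ∑ y', om W x x' y y' *
          (pp (h x y) * pp (h x' y) * (pp (-h x y') * pp (-h x' y')) +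
          pp (-h x y) * pp (-h x' y) * (pp (h x y') * pp (h x' y')))) +
        (∑ x, ∑ x', ∑ y, ∑ y', om W x x' y y' *
          (pp (h x y) * pp (h x y') * (pp (-h x' y) * pp (-h x' y')) +
          pp (-h x y) * pp (-h x y') * (pp (h x' y) * pp (h x' y')))) := by
    simp only [sum_add_distrib, ← mul_sum, hS]
  have t2 : ∑ x, ∑ x', ∑ y, ∑ y', om W x x' y y' * pp (h x y' * h x' y) = S := by
    rw [hS]
    refine sum_congr rfl fun x _ => sum_congr rfl fun x' _ => ?_
    rw [sum_comm]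
    refine sum_congr rfl fun y _ => sum_congr rfl fun y' _ => ?_
    unfold om; ring
  have t3 : ∑ x, ∑ x', ∑ y, ∑ y', om W x x' y y' *
          (pp (h x y) * pp (h x' y) * (pp (-h x y') * pp (-h x' y')) +
          pp (-h x y) * pp (-h x' y) * (pp (h x y') * pp (h x' y'))) ≤ B ^ 2 * S := by
    rw [hS, mul_sum]
    refine sum_le_sum fun x _ => ?_
    rw [mul_sum]
    refine sum_le_sum fun x' _ => ?_
    have := pair_bound (fun y => W x y * W x' y) (fun y => h x y) (fun y => h x' y)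
      (fun y => mul_nonneg (h0 _ _) (h0 _ _)) (fun y => hB x y) (fun y => hB x' y)
    refine le_trans (le_of_eq ?_) (this.trans (le_of_eq ?_))
    · refine sum_congr rfl fun y _ => sum_congr rfl fun y' _ => ?_
      unfold om; ring
    · congr 1
      refine sum_congr rfl fun y _ => sum_congr rfl fun y' _ => ?_
      unfold om; ring
  have t4 : ∑ x, ∑ x', ∑ y, ∑ y', om W x x' y y' *
          (pp (h x y) * pp (h x y') * (pp (-h x' y) * pp (-h x' y')) +
          pp (-h x y) * pp (-h x y') * (pp (h x' y) * pp (h x' y'))) ≤ B ^ 2 * S := by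
    have r1 : ∀ F : X → X → X → X → ℝ, ∑ x, ∑ x', ∑ y, ∑ y', F x x' y y' =
        ∑ y, ∑ y', ∑ x, ∑ x', F x x' y y' := by
      intro F
      calc ∑ x, ∑ x', ∑ y, ∑ y', F x x' y y' = ∑ x, ∑ y, ∑ x', ∑ y', F x x' y y' :=
            sum_congr rfl fun x _ => sum_comm
        _ = ∑ y, ∑ x, ∑ x', ∑ y', F x x' y y' := sum_comm
        _ = ∑ y, ∑ x, ∑ y', ∑ x', F x x' y y' :=
            sum_congr rfl fun y _ => sum_congr rfl fun x _ => sum_comm
        _ = ∑ y, ∑ y', ∑ x, ∑ x', F x x' y y' := sum_congr rfl fun y _ => sum_comm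
    rw [hS, r1, r1 (fun x x' y y' => om W x x' y y' * pp (h x y * h x' y')), mul_sum]
    refine sum_le_sum fun y _ => ?_
    rw [mul_sum]
    refine sum_le_sum fun y' _ => ?_
    have := pair_bound (fun x => W x y * W x y') (fun x => h x y) (fun x => h x y')
      (fun x => mul_nonneg (h0 _ _) (h0 _ _)) (fun x => hB x y) (fun x => hB x y')
    refine le_trans (le_of_eq ?_) (this.trans (le_of_eq ?_))
    · refine sum_congr rfl fun x _ => sum_congr rfl fun x' _ => ?_
      unfold om; ring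
    · congr 1
      refine sum_congr rfl fun x _ => sum_congr rfl fun x' _ => ?_
      unfold om; ring
  rw [split, t2] at step1
  linarith

/-- the four-cycle inequality -/
theorem fourcycle (W h : X → X → ℝ) :
    (∑ x, ∑ y, W x y * |h x y|) ^ 4 ≤ (Fintype.card X : ℝ) ^ 4 *
      ∑ x, ∑ x', ∑ y, ∑ y', om W x x' y y' * |h x y * h x' y' * (h x y' * h x' y)| := by
  set n : ℝ := (Fintype.card X : ℝ) with hn
  set Q : X → X → ℝ := fun x y => W x y * |h x y| with hQ
  have e1 : ∑ x, ∑ x', ∑ y, ∑ y', om W x x' y y' * |h x y * h x' y' * (h x y' * h x' y)| =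
      ∑ x, ∑ x', (∑ y, Q x y * Q x' y) ^ 2 := by
    refine sum_congr rfl fun x _ => sum_congr rfl fun x' _ => ?_
    rw [sq, sum_mul_sum]
    refine sum_congr rfl fun y _ => sum_congr rfl fun y' _ => ?_
    simp only [om, hQ, abs_mul]; ring
  have cs : ∀ (Z : Type _) [Fintype Z] (g : Z → ℝ), (∑ z, g z) ^ 2 ≤
      (Fintype.card Z : ℝ) * ∑ z, g z ^ 2 := by
    intro Z _ g
    have := sq_sum_le_card_mul_sum_sq (s := (univ : Finset Z)) (f := g)
    simpa [card_univ] using this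
  have e2 : (∑ x, ∑ x', ∑ y, Q x y * Q x' y) ^ 2 ≤
      n ^ 2 * ∑ x, ∑ x', (∑ y, Q x y * Q x' y) ^ 2 := by
    have := cs (X × X) (fun z => ∑ y, Q z.1 y * Q z.2 y)
    rw [Fintype.sum_prod_type, Fintype.sum_prod_type, Fintype.card_prod] at this
    push_cast at this
    rw [sq n]; exact this
  have e3 : ∑ x, ∑ x', ∑ y, Q x y * Q x' y = ∑ y, (∑ x, Q x y) ^ 2 := by
    have : ∀ y, (∑ x, Q x y) ^ 2 = ∑ x, ∑ x', Q x y * Q x' y := by
      intro y; rw [sq, sum_mul_sum]
    simp only [this]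
    calc ∑ x, ∑ x', ∑ y, Q x y * Q x' y = ∑ x, ∑ y, ∑ x', Q x y * Q x' y :=
          sum_congr rfl fun x _ => sum_comm
      _ = ∑ y, ∑ x, ∑ x', Q x y * Q x' y := sum_comm
  have e4 : (∑ x, ∑ y, Q x y) ^ 2 ≤ n * ∑ y, (∑ x, Q x y) ^ 2 := by
    rw [sum_comm]
    exact cs X (fun y => ∑ x, Q x y)
  have hn0 : 0 ≤ n := Nat.cast_nonneg _
  have e5 : 0 ≤ (∑ x, ∑ y, Q x y) ^ 2 := sq_nonneg _
  have e6 := pow_le_pow_left₀ e5 e4 2
  rw [e1]
  rw [e3] at e2
  calc (∑ x, ∑ y, Q x y) ^ 4 = ((∑ x, ∑ y, Q x y) ^ 2) ^ 2 := by ring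
    _ ≤ (n * ∑ y, (∑ x, Q x y) ^ 2) ^ 2 := e6
    _ = n ^ 2 * (∑ y, (∑ x, Q x y) ^ 2) ^ 2 := by ring
    _ ≤ n ^ 2 * (n ^ 2 * ∑ x, ∑ x', (∑ y, Q x y * Q x' y) ^ 2) :=
        mul_le_mul_of_nonneg_left e2 (sq_nonneg _)
    _ = _ := by ring

end quad

section gap

variable {X : Type*} [Fintype X] [DecidableEq X] {W : X → X → ℝ}
variable {l : X × X → ℝ} {f : X × X → X × X → ℝ}

theorem prod4 (F : X × X → X × X → ℝ) : ∑ a, ∑ b, F a b =
    ∑ x, ∑ x', ∑ y, ∑ y', F (x, y) (x', y') := by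
  rw [Fintype.sum_prod_type]
  refine sum_congr rfl fun x _ => ?_
  calc ∑ y, ∑ b, F (x, y) b = ∑ y, ∑ x', ∑ y', F (x, y) (x', y') :=
        sum_congr rfl fun y _ => Fintype.sum_prod_type _
    _ = ∑ x', ∑ y, ∑ y', F (x, y) (x', y') := sum_comm

/-- the gap lemma -/
theorem gap (h0 : ∀ x y, 0 ≤ W x y) (h1 : ∀ x y, W x y ≤ 1) (hL : Eig (lad W) l f) {L : ℝ}
    (hmax : ∀ p, l p ≤ L) (hn : 0 < Fintype.card X) (p : X × X) (hp : l p < 0) :
    (-l p) ^ 6 ≤ 2 * (Fintype.card X : ℝ) ^ 10 * (L + l p) := by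
  set n : ℝ := (Fintype.card X : ℝ) with hndef
  have hn0 : 0 < n := by rw [hndef]; exact_mod_cast hn
  set μ : ℝ := -l p with hμ
  have hμ0 : 0 < μ := neg_pos.mpr hp
  set φ : X × X → ℝ := f p with hφ
  have hφ1 : ∑ a, φ a ^ 2 = 1 := by
    have := hL.orth p p
    rw [if_pos rfl] at this
    rw [← this]
    exact sum_congr rfl fun a _ => sq _
  set c : X × X → X × X → ℝ := fun a b => Real.sqrt (W b.1 b.2) * (W a.1 b.2 * W b.1 a.2) with hc
  have hc0 : ∀ a b, 0 ≤ c a b := fun a b =>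
    mul_nonneg (Real.sqrt_nonneg _) (mul_nonneg (h0 _ _) (h0 _ _))
  have hc1 : ∀ a b, c a b ≤ 1 := by
    intro a b
    have e1 : Real.sqrt (W b.1 b.2) ≤ 1 := Real.sqrt_le_one.mpr (h1 _ _)
    have e2 : W a.1 b.2 * W b.1 a.2 ≤ 1 := mul_le_one₀ (h1 _ _) (h0 _ _) (h1 _ _)
    exact mul_le_one₀ e1 (mul_nonneg (h0 _ _) (h0 _ _)) e2
  set h : X → X → ℝ := fun x y => -(1 / μ) * ∑ b, c (x, y) b * φ b with hh
  have hφh : ∀ x y, φ (x, y) = Real.sqrt (W x y) * h x y := by
    intro x y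
    have e := hL.apply p (x, y)
    have e1 : ∑ b, lad W (x, y) b * f p b = Real.sqrt (W x y) * ∑ b, c (x, y) b * φ b := by
      rw [mul_sum]
      refine sum_congr rfl fun b _ => ?_
      simp only [lad, hc]; ring
    rw [e1] at e
    have e2 : l p = -μ := by rw [hμ]; ring
    rw [e2] at e
    simp only [hh]
    field_simp
    linarith
  set B : ℝ := n / μ with hB
  have hB0 : 0 < B := div_pos hn0 hμ0
  have hhB : ∀ x y, |h x y| ≤ B := by
    intro x y
    have e1 : (∑ b, c (x, y) b * φ b) ^ 2 ≤ n ^ 2 := by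
      refine (sum_mul_sq_le_sq_mul_sq _ _ _).trans ?_
      rw [hφ1, mul_one]
      have e2 : ∑ b, c (x, y) b ^ 2 ≤ ∑ b : X × X, (1 : ℝ) :=
        sum_le_sum fun b _ => pow_le_one₀ (hc0 _ _) (hc1 _ _)
      refine e2.trans (le_of_eq ?_)
      rw [sum_const, card_univ, Fintype.card_prod, nsmul_eq_mul, mul_one, sq]
      push_cast; rfl
    have e3 : |∑ b, c (x, y) b * φ b| ≤ n := abs_le_of_sq_le_sq e1 hn0.le
    simp only [hh]
    rw [abs_mul, abs_neg, abs_of_pos (by positivity : 0 < 1 / μ), hB, div_mul_eq_mul_div, one_mul]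
    exact div_le_div_of_nonneg_right e3 hμ0.le
  have hsq : ∀ x y, Real.sqrt (W x y) * Real.sqrt (W x y) = W x y := fun x y =>
    Real.mul_self_sqrt (h0 x y)
  set S : ℝ := ∑ x, ∑ x', ∑ y, ∑ y', om W x x' y y' * pp (h x y * h x' y') with hS
  -- the quadratic forms
  have q1 : ∑ x, ∑ x', ∑ y, ∑ y', om W x x' y y' * (h x y * h x' y') = -μ := by
    have e := hL.self p
    rw [prod4] at e
    rw [hμ, neg_neg, ← e]
    refine sum_congr rfl fun x _ => sum_congr rfl fun x' _ => sum_congr rfl fun y _ =>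
      sum_congr rfl fun y' _ => ?_
    change _ = φ (x, y) * lad W (x, y) (x', y') * φ (x', y')
    rw [hφh, hφh]
    simp only [lad, om]
    calc _ = (W x y) * (W x' y') * (W x y' * W x' y * (h x y * h x' y')) := by ring
      _ = (Real.sqrt (W x y) * Real.sqrt (W x y)) * (Real.sqrt (W x' y') * Real.sqrt (W x' y')) *
          (W x y' * W x' y * (h x y * h x' y')) := by rw [hsq, hsq]
      _ = _ := by ring
  have q2 : ∑ x, ∑ x', ∑ y, ∑ y', om W x x' y y' * |h x y * h x' y'| ≤ L := by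
    have e := hL.quad_le hmax (fun a => |φ a|)
    simp only [sq_abs, hφ1, mul_one] at e
    rw [prod4] at e
    refine le_trans (le_of_eq ?_) e
    refine sum_congr rfl fun x _ => sum_congr rfl fun x' _ => sum_congr rfl fun y _ =>
      sum_congr rfl fun y' _ => ?_
    rw [hφh, hφh]
    simp only [lad, om, abs_mul, abs_of_nonneg (Real.sqrt_nonneg _)]
    calc _ = (W x y) * (W x' y') * (W x y' * W x' y * (|h x y| * |h x' y'|)) := by ring
      _ = (Real.sqrt (W x y) * Real.sqrt (W x y)) * (Real.sqrt (W x' y') * Real.sqrt (W x' y')) *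
          (W x y' * W x' y * (|h x y| * |h x' y'|)) := by rw [hsq, hsq]
      _ = _ := by ring
  have q3 : 2 * S ≤ L + l p := by
    have e : 2 * S = ∑ x, ∑ x', ∑ y, ∑ y', om W x x' y y' * |h x y * h x' y'| +
        ∑ x, ∑ x', ∑ y, ∑ y', om W x x' y y' * (h x y * h x' y') := by
      rw [hS, mul_sum, ← sum_add_distrib]
      refine sum_congr rfl fun x _ => ?_
      rw [mul_sum, ← sum_add_distrib]
      refine sum_congr rfl fun x' _ => ?_
      rw [mul_sum, ← sum_add_distrib]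
      refine sum_congr rfl fun y _ => ?_
      rw [mul_sum, ← sum_add_distrib]
      refine sum_congr rfl fun y' _ => ?_
      have := two_pp (h x y * h x' y')
      calc _ = om W x x' y y' * (2 * pp (h x y * h x' y')) := by ring
        _ = _ := by rw [this]; ring
    rw [e, q1]
    have e2 : l p = -μ := by rw [hμ]; ring
    linarith
  -- lower bound for the four-cycle sum
  have q4 := quad_bound W h h0 hhB
  have q5 := fourcycle W h
  have q6 : 1 ≤ B * ∑ x, ∑ y, W x y * |h x y| := by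
    rw [← hφ1, Fintype.sum_prod_type, mul_sum]
    refine sum_le_sum fun x _ => ?_
    rw [mul_sum]
    refine sum_le_sum fun y _ => ?_
    rw [hφh, mul_pow, Real.sq_sqrt (h0 _ _), ← sq_abs (h x y)]
    have := mul_le_mul_of_nonneg_left (hhB x y) (mul_nonneg (h0 x y) (abs_nonneg (h x y)))
    nlinarith
  rw [← hS] at q4
  rw [← hndef] at q5
  have q7 : 1 ≤ (B * ∑ x, ∑ y, W x y * |h x y|) ^ 4 := one_le_pow₀ q6
  rw [mul_pow] at q7
  have q8 : 1 ≤ B ^ 4 * (n ^ 4 * (4 * B ^ 2 * S)) := by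
    refine q7.trans (mul_le_mul_of_nonneg_left ?_ (by positivity))
    exact q5.trans (mul_le_mul_of_nonneg_left q4 (by positivity))
  have q9 : B ^ 4 * (n ^ 4 * (4 * B ^ 2 * S)) = 4 * n ^ 10 * S / μ ^ 6 := by
    rw [hB]; field_simp
  rw [q9, le_div_iff₀ (by positivity), one_mul] at q8
  have q10 : 4 * n ^ 10 * S ≤ 2 * n ^ 10 * (L + l p) := by
    have := mul_le_mul_of_nonneg_left q3 (by positivity : 0 ≤ 2 * n ^ 10)
    linarith
  exact q8.trans q10

end gap

end Vale.Agent.P050.H148
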