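import Vale.Agent.P050.H148.Main
import Vale.Agent.P050.H148.Defs

set_option linter.all false

/-!
Moebius ladders in graphs.
-/

namespace Vale.Agent.P050.H148

open Finset

section weighted

variable {X : Type*} [Fintype X]

theorem ladSum_two (W : X → X → ℝ) (k : ℕ) [NeZero k] : ladSum W k =
    ∑ x : ZMod k → X, ∑ y : ZMod k → X,
      ∏ i, (W (x i) (y i) * (W (x i) (y (i + 1)) * W (x (i + 1)) (y i))) := by
  classical
  unfold ladSum
  rw [← Fintype.sum_prod_type']
  exact Fintype.sum_equiv (Equiv.arrowProdEquivProdArrow (ZMod k) (fun _ => X) (fun _ => X)) _ _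
    (fun w => rfl)

theorem weighted (W : X → X → ℝ) (hs : ∀ x y, W x y = W y x) (h0 : ∀ x y, 0 ≤ W x y)
    (h1 : ∀ x y, W x y ≤ 1) [Nonempty X] {p : ℝ} (hp0 : 0 < p)
    (hp : (∑ x, ∑ y, W x y) / (Fintype.card X : ℝ) ^ 2 = p) (k : ℕ) [NeZero k] (hk : Odd k)
    (h : (5 ≤ k ∧ 5 / 8 ≤ p) ∨ (7 ≤ k ∧ 3 / 5 ≤ p) ∨ 258 ≤ k * p ^ 17) :
    p ^ (3 * k) ≤ ladderDensity W k := by
  classical
  have hn : 0 < Fintype.card X := Fintype.card_pos
  have hn0 : (0 : ℝ) < Fintype.card X := by exact_mod_cast hn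
  have hp' : ∑ x, ∑ y, W x y = p * (Fintype.card X : ℝ) ^ 2 := by
    rw [← hp]; field_simp
  have hp1 : p ≤ 1 := by
    have e : ∑ x : X, ∑ y : X, W x y ≤ ∑ x : X, ∑ y : X, (1 : ℝ) :=
      sum_le_sum fun x _ => sum_le_sum fun y _ => h1 x y
    simp only [sum_const, card_univ, nsmul_eq_mul, mul_one] at e
    rw [hp'] at e
    have : p * (Fintype.card X : ℝ) ^ 2 ≤ 1 * (Fintype.card X : ℝ) ^ 2 := by
      linarith [e, sq (Fintype.card X : ℝ)]
    exact le_of_mul_le_mul_right this (by positivity)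
  have key := ladder_one hs h0 h1 hn hp0 hp' k hk
  have fin : p ^ (3 * k) * (Fintype.card X : ℝ) ^ (2 * k) ≤ ladSum W k := by
    rcases h with ⟨h5, h58⟩ | ⟨h7, h35⟩ | hbig
    · refine key h5 (Or.inl fun z hz hz1 => ?_)
      refine cond_mono (p⁻¹ * z) (1 + z ^ 4) (by positivity) (by linarith [pow_nonneg hz 4])
        (by norm_num : (5 : ℕ) ≠ 0) h5 (cond5 p⁻¹ z (by positivity) ?_ hz hz1)
      rw [inv_le_comm₀ hp0 (by norm_num)]
      linarith
    · refine key (by omega) (Or.inl fun z hz hz1 => ?_)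
      refine cond_mono (p⁻¹ * z) (1 + z ^ 4) (by positivity) (by linarith [pow_nonneg hz 4])
        (by norm_num : (7 : ℕ) ≠ 0) h7 (cond7 p⁻¹ z (by positivity) ?_ hz hz1)
      rw [inv_le_comm₀ hp0 (by norm_num)]
      linarith
    · have hk258 : 258 ≤ k := by
        have e1 : p ^ 17 ≤ 1 := pow_le_one₀ hp0.le hp1
        have e2 : (258 : ℝ) ≤ k := by
          have := mul_le_mul_of_nonneg_left e1 (Nat.cast_nonneg k : (0 : ℝ) ≤ k)
          linarith
        exact_mod_cast e2
      refine key (by omega) (Or.inr ?_)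
      have e1 : p ^ 17 ≤ 1 := pow_le_one₀ hp0.le hp1
      have e2 : ((k - 2 : ℕ) : ℝ) = k - 2 := by
        rw [Nat.cast_sub (by omega)]; norm_num
      rw [e2]
      nlinarith
  unfold ladderDensity
  rw [← ladSum_two, le_div_iff₀ (by positivity)]
  exact fin

end weighted

section graph

variable {X : Type*} [Fintype X]

open Classical in
/-- adjacency as a real number -/
noncomputable def adj (G : SimpleGraph X) (x y : X) : ℝ := if G.Adj x y then 1 else 0

theorem adj_sum (G : SimpleGraph X) [Nonempty X] :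
    (∑ x, ∑ y, adj G x y) / (Fintype.card X : ℝ) ^ 2 = edgeDensity G := by
  classical
  unfold edgeDensity
  rw [Nat.card_eq_fintype_card, Nat.card_eq_fintype_card]
  congr 1
  have h1 : ∀ x, ∑ y, adj G x y = G.degree x := by
    intro x
    simp only [adj]
    rw [sum_boole, ← SimpleGraph.card_neighborFinset_eq_degree]
    congr 2
    ext y
    simp
  simp only [h1]
  rw [← Nat.cast_sum, SimpleGraph.sum_degrees_eq_twice_card_edges,
    SimpleGraph.edgeFinset_card]
  push_cast; rfl

/-- homomorphisms from the Moebius ladder -/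
def homEquiv (G : SimpleGraph X) (k : ℕ) :
    (moebiusLadder k →g G) ≃ {w : (ZMod k → X) × (ZMod k → X) //
      ∀ i, G.Adj (w.1 i) (w.2 i) ∧ G.Adj (w.1 i) (w.2 (i + 1)) ∧ G.Adj (w.1 (i + 1)) (w.2 i)} where
  toFun φ := ⟨(fun i => φ (i, false), fun i => φ (i, true)), fun i =>
    ⟨φ.map_rel ⟨by simp, Or.inl rfl⟩, φ.map_rel ⟨by simp, Or.inr (Or.inr rfl)⟩,
      φ.map_rel ⟨by simp, Or.inr (Or.inl rfl)⟩⟩⟩
  invFun w := ⟨fun v => if v.2 then w.1.2 v.1 else w.1.1 v.1, by
    rintro ⟨i, a⟩ ⟨j, b⟩ ⟨hab, hij⟩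
    have hw := w.2
    simp only at hab hij
    cases a <;> cases b
    · exact absurd rfl hab
    · simp only [Bool.false_eq_true, if_false, if_true]
      rcases hij with h | h | h
      · subst h; exact (hw i).1
      · subst h; exact (hw j).2.2
      · subst h; exact (hw i).2.1
    · simp only [Bool.false_eq_true, if_false, if_true]
      rcases hij with h | h | h
      · subst h; exact (hw i).1.symm
      · subst h; exact (hw j).2.1.symm
      · subst h; exact (hw i).2.2.symm
    · exact absurd rfl hab⟩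
  left_inv φ := by
    ext ⟨i, a⟩
    cases a <;> rfl
  right_inv w := by
    apply Subtype.ext
    apply Prod.ext <;> rfl

theorem hom_ladder (G : SimpleGraph X) [Nonempty X] (k : ℕ) [NeZero k] :
    homDensity (moebiusLadder k) G = ladderDensity (adj G) k := by
  classical
  unfold homDensity ladderDensity
  have h1 : Nat.card (ZMod k × Bool) = 2 * k := by
    rw [Nat.card_prod, Nat.card_zmod, Nat.card_eq_fintype_card, Fintype.card_bool, mul_comm]
  rw [h1, Nat.card_eq_fintype_card (α := X)]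
  congr 1
  rw [Nat.card_congr (homEquiv G k), Nat.card_eq_fintype_card, Fintype.card_subtype,
    card_eq_sum_ones, sum_filter, ← Fintype.sum_prod_type']
  push_cast
  refine sum_congr rfl fun w _ => ?_
  have h2 : ∀ i, adj G (w.1 i) (w.2 i) * (adj G (w.1 i) (w.2 (i + 1)) *
      adj G (w.1 (i + 1)) (w.2 i)) = if (G.Adj (w.1 i) (w.2 i) ∧ G.Adj (w.1 i) (w.2 (i + 1)) ∧
        G.Adj (w.1 (i + 1)) (w.2 i)) then (1 : ℝ) else 0 := by
    intro i
    simp only [adj]
    by_cases a : G.Adj (w.1 i) (w.2 i) <;> by_cases b : G.Adj (w.1 i) (w.2 (i + 1)) <;>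
      by_cases c : G.Adj (w.1 (i + 1)) (w.2 i) <;> simp [a, b, c]
  simp only [h2]
  rw [prod_ite_zero]
  simp

theorem graph (G : SimpleGraph X) [Nonempty X] (k : ℕ) (hk : Odd k)
    (h : (5 ≤ k ∧ 5 / 8 ≤ edgeDensity G) ∨ (7 ≤ k ∧ 3 / 5 ≤ edgeDensity G) ∨
      258 ≤ k * edgeDensity G ^ 17) :
    edgeDensity G ^ (3 * k) ≤ homDensity (moebiusLadder k) G := by
  classical
  haveI : NeZero k := ⟨by rintro rfl; exact absurd hk (by decide)⟩
  rw [hom_ladder]
  have hp := adj_sum G
  have hnn : 0 ≤ edgeDensity G := by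
    unfold edgeDensity; positivity
  have hp0 : 0 < edgeDensity G := by
    rcases h with ⟨_, h⟩ | ⟨_, h⟩ | h
    · linarith
    · linarith
    · rcases hnn.lt_or_eq with h' | h'
      · exact h'
      · rw [← h'] at h; norm_num at h
  refine weighted (adj G) ?_ ?_ ?_ hp0 hp k hk h
  · intro x y; simp only [adj, SimpleGraph.adj_comm]
  · intro x y; simp only [adj]; split_ifs <;> norm_num
  · intro x y; simp only [adj]; split_ifs <;> norm_num

theorem homDensity_congr {V V' : Type*} {H : SimpleGraph V} {H' : SimpleGraph V'} (e : H ≃g H')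
    (G : SimpleGraph X) : homDensity H G = homDensity H' G := by
  unfold homDensity
  rw [Nat.card_congr e.toEquiv]
  congr 2
  exact Nat.card_congr
    { toFun := fun φ => φ.comp e.symm.toHom
      invFun := fun φ => φ.comp e.toHom
      left_inv := fun φ => by ext v; simp
      right_inv := fun φ => by ext v; simp }

/-- the underlying bijection -/
def iso5fun (v : ZMod 5 × Bool) : ZMod 10 := ((2 * v.1.val + (if v.2 then 5 else 0) : ℕ) : ZMod 10)

theorem iso5 : Nonempty (moebiusLadder 5 ≃g K55minusC10) := by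
  have hb : Function.Bijective iso5fun := by
    rw [Fintype.bijective_iff_injective_and_card]
    refine ⟨?_, rfl⟩
    unfold Function.Injective
    decide
  refine ⟨⟨Equiv.ofBijective iso5fun hb, ?_⟩⟩
  intro a b
  simp only [Equiv.ofBijective_apply]
  unfold moebiusLadder K55minusC10
  simp only
  revert a b
  decide

theorem graph5 (G : SimpleGraph X) [Nonempty X] (h : 5 / 8 ≤ edgeDensity G) :
    edgeDensity G ^ 15 ≤ homDensity K55minusC10 G := by
  obtain ⟨e⟩ := iso5
  rw [← homDensity_congr e]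
  exact graph G 5 (by decide) (Or.inl ⟨le_refl _, h⟩)

end graph

end Vale.Agent.P050.H148
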