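import Vale.Agent.P050.MathlibUsed

set_option linter.all false

/-!
Elementary inequalities.
-/

namespace Vale.Agent.P050.H148

open Finset

theorem pow_incr (u t : ℝ) (hu : 1 ≤ u) (ht : 0 ≤ t) (ht1 : t ≤ 1) {k : ℕ} (hk : 3 ≤ k) :
    u ^ k + u * ((1 + t) ^ k - 1) ≤ (u + t) ^ k := by
  induction k, hk using Nat.le_induction with
  | base =>
    have h1 : 0 ≤ (u - 1) * t * (3 * u - t ^ 2) := by
      have h2 : t ^ 2 ≤ 1 := pow_le_one₀ ht ht1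
      have h3 : 0 ≤ 3 * u - t ^ 2 := by linarith
      have h4 : 0 ≤ u - 1 := by linarith
      positivity
    nlinarith
  | succ k hk ih =>
    have h1 : 1 ≤ u ^ k := one_le_pow₀ hu
    have h2 : 1 ≤ (1 + t) ^ k := one_le_pow₀ (by linarith)
    have h3 := mul_le_mul_of_nonneg_left ih (by linarith : 0 ≤ u + t)
    have h4 : 0 ≤ u * (u - 1) * ((1 + t) ^ k - 1) := by
      have : 0 ≤ u - 1 := by linarith
      have : 0 ≤ (1 + t) ^ k - 1 := by linarith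
      have : 0 ≤ u := by linarith
      positivity
    have h5 : 0 ≤ t * (u ^ k - u) := by
      have : u ≤ u ^ k := le_self_pow₀ hu (by omega)
      exact mul_nonneg ht (by linarith)
    rw [pow_succ (u + t), pow_succ u, pow_succ (1 + t)]
    nlinarith

theorem num_sum {ι : Type*} [DecidableEq ι] (J : Finset ι) (z : ι → ℝ) (q : ℝ) (hq : 0 ≤ q) {k : ℕ}
    (hk : 4 ≤ k) (hz0 : ∀ j ∈ J, 0 ≤ z j) (hz1 : ∀ j ∈ J, z j ≤ 1)
    (hC : ∀ j ∈ J, 1 + (q * z j) ^ k ≤ (1 + z j ^ 4) ^ k) :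
    1 + q ^ k * (((1 + ∑ j ∈ J, z j ^ k) ^ 2 - (1 + ∑ j ∈ J, (z j ^ k) ^ 2)) / 2) ≤
      (1 + ∑ j ∈ J, z j ^ 4) ^ k ∧ ∑ j ∈ J, z j ^ k ≤ ∑ j ∈ J, z j ^ 4 := by
  induction J using Finset.induction_on with
  | empty => simp
  | insert a J ha ih =>
    obtain ⟨ih1, ih2⟩ := ih (fun j hj => hz0 j (mem_insert_of_mem hj))
      (fun j hj => hz1 j (mem_insert_of_mem hj)) (fun j hj => hC j (mem_insert_of_mem hj))
    have hz0a := hz0 a (mem_insert_self a J)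
    have hz1a := hz1 a (mem_insert_self a J)
    have hCa := hC a (mem_insert_self a J)
    have hE0 : 0 ≤ ∑ j ∈ J, z j ^ 4 := sum_nonneg fun j hj =>
      pow_nonneg (hz0 j (mem_insert_of_mem hj)) 4
    have hs0 : 0 ≤ ∑ j ∈ J, z j ^ k := sum_nonneg fun j hj =>
      pow_nonneg (hz0 j (mem_insert_of_mem hj)) k
    have hak : z a ^ k ≤ z a ^ 4 := pow_le_pow_of_le_one hz0a hz1a hk
    rw [sum_insert ha, sum_insert ha, sum_insert ha]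
    refine ⟨?_, by linarith⟩
    set E : ℝ := ∑ j ∈ J, z j ^ 4 with hE
    set s : ℝ := ∑ j ∈ J, z j ^ k with hs
    set r : ℝ := ∑ j ∈ J, (z j ^ k) ^ 2 with hr
    have h1 := pow_incr (1 + E) (z a ^ 4) (by linarith) (by positivity)
      (pow_le_one₀ hz0a hz1a) (by omega : 3 ≤ k)
    have h2 : (q * z a) ^ k ≤ (1 + z a ^ 4) ^ k - 1 := by linarith
    have h3 : (1 + s) * (q * z a) ^ k ≤ (1 + E) * ((1 + z a ^ 4) ^ k - 1) :=
      mul_le_mul (by linarith) h2 (by positivity) (by linarith)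
    have h4 : 1 + q ^ k * (((1 + (z a ^ k + s)) ^ 2 - (1 + ((z a ^ k) ^ 2 + r))) / 2) =
        1 + q ^ k * (((1 + s) ^ 2 - (1 + r)) / 2) + (1 + s) * (q * z a) ^ k := by
      rw [mul_pow]; ring
    have h5 : 1 + (z a ^ 4 + E) = 1 + E + z a ^ 4 := by ring
    rw [h4, h5]
    linarith

/-- the condition propagates to larger exponents -/
theorem cond_mono (y v : ℝ) (hy : 0 ≤ y) (hv : 1 ≤ v) {j k : ℕ} (hj : j ≠ 0) (hjk : j ≤ k)
    (h : 1 + y ^ j ≤ v ^ j) : 1 + y ^ k ≤ v ^ k := by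
  have hyv : y ≤ v := by
    by_contra hc
    rw [not_le] at hc
    have := pow_le_pow_left₀ (by linarith) hc.le j
    linarith
  obtain ⟨d, rfl⟩ := Nat.exists_eq_add_of_le hjk
  have h1 : 1 ≤ v ^ d := one_le_pow₀ hv
  have h2 : y ^ d ≤ v ^ d := pow_le_pow_left₀ hy hyv d
  have h3 : 0 ≤ y ^ j := pow_nonneg hy j
  rw [pow_add, pow_add]
  calc 1 + y ^ j * y ^ d ≤ v ^ d + y ^ j * v ^ d := by
        have := mul_le_mul_of_nonneg_left h2 h3; linarith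
    _ = (1 + y ^ j) * v ^ d := by ring
    _ ≤ v ^ j * v ^ d := mul_le_mul_of_nonneg_right h (by linarith)

/-- exponent 5, density at least 5/8 -/
theorem cond5 (q z : ℝ) (hq : 0 ≤ q) (hq1 : q ≤ 8 / 5) (hz : 0 ≤ z) (hz1 : z ≤ 1) :
    1 + (q * z) ^ 5 ≤ (1 + z ^ 4) ^ 5 := by
  have h1 : (q * z) ^ 5 ≤ (8 / 5 * z) ^ 5 :=
    pow_le_pow_left₀ (by positivity) (mul_le_mul_of_nonneg_right hq1 hz) 5
  have h2 : (8 / 5 : ℝ) ^ 5 * z ≤ 5 + 10 * z ^ 4 + 10 * z ^ 8 := by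
    nlinarith [sq_nonneg (z ^ 2 - 36 / 100), sq_nonneg (z - 58 / 100), sq_nonneg (z ^ 4 - 1 / 8)]
  have h3 : (8 / 5 * z) ^ 5 ≤ 5 * z ^ 4 + 10 * z ^ 8 + 10 * z ^ 12 := by
    have := mul_le_mul_of_nonneg_left h2 (by positivity : 0 ≤ z ^ 4)
    calc (8 / 5 * z) ^ 5 = z ^ 4 * ((8 / 5) ^ 5 * z) := by ring
      _ ≤ z ^ 4 * (5 + 10 * z ^ 4 + 10 * z ^ 8) := this
      _ = _ := by ring
  have h4 : (1 + z ^ 4) ^ 5 = 1 + (5 * z ^ 4 + 10 * z ^ 8 + 10 * z ^ 12) +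
      (5 * z ^ 16 + z ^ 20) := by ring
  have h5 : 0 ≤ 5 * z ^ 16 + z ^ 20 := by positivity
  linarith

/-- exponent 7, density at least 3/5 -/
theorem cond7 (q z : ℝ) (hq : 0 ≤ q) (hq1 : q ≤ 5 / 3) (hz : 0 ≤ z) (hz1 : z ≤ 1) :
    1 + (q * z) ^ 7 ≤ (1 + z ^ 4) ^ 7 := by
  have h1 : (q * z) ^ 7 ≤ (5 / 3 * z) ^ 7 :=
    pow_le_pow_left₀ (by positivity) (mul_le_mul_of_nonneg_right hq1 hz) 7
  have h2 : (5 / 3 : ℝ) ^ 7 * z ^ 3 ≤ 7 + 21 * z ^ 4 + 35 * z ^ 8 := by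
    nlinarith [sq_nonneg (z ^ 2 - 49 / 100), sq_nonneg (z - 7 / 10), sq_nonneg (z ^ 4 - 1 / 4),
      mul_nonneg hz (sq_nonneg (z - 7 / 10)), sq_nonneg (z ^ 2 - 7 / 10 * z),
      mul_nonneg hz (sq_nonneg (z ^ 2 - 49 / 100))]
  have h3 : (5 / 3 * z) ^ 7 ≤ 7 * z ^ 4 + 21 * z ^ 8 + 35 * z ^ 12 := by
    have := mul_le_mul_of_nonneg_left h2 (by positivity : 0 ≤ z ^ 4)
    calc (5 / 3 * z) ^ 7 = z ^ 4 * ((5 / 3) ^ 7 * z ^ 3) := by ring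
      _ ≤ z ^ 4 * (7 + 21 * z ^ 4 + 35 * z ^ 8) := this
      _ = _ := by ring
  have h4 : (1 + z ^ 4) ^ 7 = 1 + (7 * z ^ 4 + 21 * z ^ 8 + 35 * z ^ 12) +
      (35 * z ^ 16 + 21 * z ^ 20 + 7 * z ^ 24 + z ^ 28) := by ring
  have h5 : 0 ≤ 35 * z ^ 16 + 21 * z ^ 20 + 7 * z ^ 24 + z ^ 28 := by positivity
  linarith

/-- large exponents, small numbers -/
theorem cond_small (p z : ℝ) (hp : 0 < p) (hz : 0 ≤ z) (hzp : z ≤ p) {k : ℕ} (hk : 4 ≤ k)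
    (h : 1 ≤ k * p ^ 4) : 1 + (p⁻¹ * z) ^ k ≤ (1 + z ^ 4) ^ k := by
  have h1 : p⁻¹ * z ≤ 1 := by
    rw [inv_mul_le_iff₀ hp]; linarith
  have h2 : (p⁻¹ * z) ^ k ≤ (p⁻¹ * z) ^ 4 := pow_le_pow_of_le_one (by positivity) h1 hk
  have h3 : (p⁻¹ * z) ^ 4 ≤ k * z ^ 4 := by
    rw [mul_pow, inv_pow, inv_mul_le_iff₀ (by positivity)]
    have := mul_le_mul_of_nonneg_right h (by positivity : 0 ≤ z ^ 4)
    linarith
  have h4 : 1 + (k : ℝ) * z ^ 4 ≤ (1 + z ^ 4) ^ k :=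
    one_add_mul_le_pow (by have : 0 ≤ z ^ 4 := by positivity
                           linarith) k
  linarith

/-- the gap step -/
theorem gap_num (p L m : ℝ) (hp : 0 < p) (hp1 : p ≤ 1) (hL : p ^ 3 ≤ L) (hm : 0 ≤ m)
    (hgap : m ^ 6 ≤ 2 * (L - m)) : m ≤ L * (1 - p ^ 15 / 128) := by
  have hL0 : 0 < L := lt_of_lt_of_le (by positivity) hL
  have hp15 : p ^ 15 ≤ 1 := pow_le_one₀ hp.le hp1
  by_cases h : m ≤ L / 2
  · have : L / 2 ≤ L * (1 - p ^ 15 / 128) := by nlinarith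
    linarith
  · rw [not_le] at h
    have h1 : (L / 2) ^ 6 ≤ m ^ 6 := pow_le_pow_left₀ (by linarith) h.le 6
    have h2 : p ^ 15 ≤ L ^ 5 := by
      calc p ^ 15 = (p ^ 3) ^ 5 := by ring
        _ ≤ L ^ 5 := pow_le_pow_left₀ (by positivity) hL 5
    have h3 : L * p ^ 15 ≤ L * L ^ 5 := mul_le_mul_of_nonneg_left h2 hL0.le
    nlinarith

/-- the final step for large exponents -/
theorem final_num (p L : ℝ) (hp : 0 < p) (hp1 : p ≤ 1) (hL : p ^ 3 * (1 + p ^ 4) ≤ L) (j : ℕ)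
    (hj : 256 ≤ j * p ^ 17) :
    p ^ (3 * (j + 2)) + (L * (1 - p ^ 15 / 128)) ^ j * (L * p) ≤ L ^ (j + 2) := by
  have hp4 : p ^ 4 ≤ 1 := pow_le_one₀ hp.le hp1
  have hL3 : p ^ 3 ≤ L := by
    have : 0 ≤ p ^ 3 * p ^ 4 := by positivity
    linarith [hL, (by ring : p ^ 3 * (1 + p ^ 4) = p ^ 3 + p ^ 3 * p ^ 4)]
  have hL0 : 0 < L := lt_of_lt_of_le (by positivity) hL3
  set z : ℝ := p ^ 15 / 128 with hz
  have hz0 : 0 < z := by positivity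
  have hz1 : z ≤ 1 / 128 := by
    have : p ^ 15 ≤ 1 := pow_le_one₀ hp.le hp1
    rw [hz]; linarith
  have h1 : (1 - z) ^ j * (1 + j * z) ≤ 1 := by
    have e1 : 1 + (j : ℝ) * z ≤ (1 + z) ^ j := one_add_mul_le_pow (by linarith) j
    calc (1 - z) ^ j * (1 + j * z) ≤ (1 - z) ^ j * (1 + z) ^ j :=
          mul_le_mul_of_nonneg_left e1 (pow_nonneg (by linarith) j)
      _ = (1 - z ^ 2) ^ j := by rw [← mul_pow]; ring
      _ ≤ 1 := pow_le_one₀ (by nlinarith) (by nlinarith)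
  have h2 : 2 ≤ p ^ 2 * (1 + j * z) := by
    have e1 : p ^ 2 * (1 + j * z) = p ^ 2 + (j * p ^ 17) / 128 := by rw [hz]; ring
    rw [e1]
    have : 0 ≤ p ^ 2 := by positivity
    linarith
  have h3 : 2 * (1 - z) ^ j ≤ p ^ 2 := by
    have e0 : 0 ≤ (1 - z) ^ j := pow_nonneg (by linarith) j
    have e1 := mul_le_mul_of_nonneg_left h2 e0
    have e2 := mul_le_mul_of_nonneg_left h1 (by positivity : 0 ≤ p ^ 2)
    nlinarith
  have h4 : 2 * ((L * (1 - z)) ^ j * (L * p)) ≤ L ^ (j + 2) := by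
    rw [mul_pow]
    have e0 : 0 ≤ L ^ j * (L * p) := by positivity
    have e1 := mul_le_mul_of_nonneg_left h3 e0
    calc 2 * (L ^ j * (1 - z) ^ j * (L * p)) = L ^ j * (L * p) * (2 * (1 - z) ^ j) := by ring
      _ ≤ L ^ j * (L * p) * p ^ 2 := e1
      _ = L ^ j * L * p ^ 3 := by ring
      _ ≤ L ^ j * L * L := mul_le_mul_of_nonneg_left hL3 (by positivity)
      _ = L ^ (j + 2) := by ring
  have h5 : 2 * p ^ (3 * (j + 2)) ≤ L ^ (j + 2) := by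
    have e1 : 1 + ((j + 2 : ℕ) : ℝ) * p ^ 4 ≤ (1 + p ^ 4) ^ (j + 2) :=
      one_add_mul_le_pow (by have : 0 ≤ p ^ 4 := by positivity
                             linarith) (j + 2)
    have e2 : 1 ≤ ((j + 2 : ℕ) : ℝ) * p ^ 4 := by
      have e3 : p ^ 17 ≤ p ^ 4 := pow_le_pow_of_le_one hp.le hp1 (by norm_num)
      have e4 : (j : ℝ) * p ^ 17 ≤ j * p ^ 4 := mul_le_mul_of_nonneg_left e3 (Nat.cast_nonneg _)
      push_cast
      have : 0 ≤ p ^ 4 := by positivity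
      nlinarith
    calc 2 * p ^ (3 * (j + 2)) = (p ^ 3) ^ (j + 2) * 2 := by rw [pow_mul]; ring
      _ ≤ (p ^ 3) ^ (j + 2) * (1 + p ^ 4) ^ (j + 2) :=
          mul_le_mul_of_nonneg_left (by linarith) (by positivity)
      _ = (p ^ 3 * (1 + p ^ 4)) ^ (j + 2) := by rw [mul_pow]
      _ ≤ L ^ (j + 2) := pow_le_pow_left₀ (by positivity) hL _
  linarith

end Vale.Agent.P050.H148
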