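import Vale.Agent.P050.H148.Gap
import Vale.Agent.P050.H148.Num

set_option linter.all false

/-!
Moebius ladders in weighted graphs.
-/

namespace Vale.Agent.P050.H148

open Finset

section main

variable {X : Type*} [Fintype X] [DecidableEq X] {W : X → X → ℝ} {t : X → ℝ} {u : X → X → ℝ}
variable {l : X × X → ℝ} {f : X × X → X × X → ℝ}

theorem Eig.square (hW : Eig W t u) :
    Eig (fun x x' => ∑ y, W x y * W x' y) (fun i => t i ^ 2) u := by
  refine ⟨hW.orth, hW.comp, fun x x' => ?_⟩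
  have h1 : ∀ y, W x y * W x' y = ∑ i, t i * u i x * (W x' y * u i y) := by
    intro y
    rw [hW.eq x y, sum_mul]
    refine sum_congr rfl fun i _ => by ring
  simp only [h1]
  rw [sum_comm]
  refine sum_congr rfl fun i _ => ?_
  rw [← mul_sum, hW.apply]; ring

theorem sum_om (hW : Eig W t u) : ∑ x, ∑ x', ∑ y, ∑ y', om W x x' y y' = ∑ i, t i ^ 4 := by
  have h := hW.square.sum_sq
  have h1 : ∑ i, t i ^ 4 = ∑ i, (t i ^ 2) ^ 2 := sum_congr rfl fun i _ => by ring
  rw [h1, h]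
  refine sum_congr rfl fun x _ => sum_congr rfl fun x' _ => ?_
  rw [sq, sum_mul_sum]
  refine sum_congr rfl fun y _ => sum_congr rfl fun y' _ => ?_
  unfold om; ring

theorem sum_om_le (h0 : ∀ x y, 0 ≤ W x y) (hL : Eig (lad W) l f) {L : ℝ} (hmax : ∀ p, l p ≤ L) :
    ∑ x, ∑ x', ∑ y, ∑ y', om W x x' y y' ≤ L * ∑ x, ∑ y, W x y := by
  have e := hL.quad_le hmax (fun a => Real.sqrt (W a.1 a.2))
  rw [prod4, Fintype.sum_prod_type] at e
  refine le_trans (le_of_eq ?_) (e.trans (le_of_eq ?_))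
  · refine sum_congr rfl fun x _ => sum_congr rfl fun x' _ => sum_congr rfl fun y _ =>
      sum_congr rfl fun y' _ => ?_
    simp only [lad, om]
    have e1 := Real.mul_self_sqrt (h0 x y)
    have e2 := Real.mul_self_sqrt (h0 x' y')
    calc _ = (Real.sqrt (W x y) * Real.sqrt (W x y)) * (Real.sqrt (W x' y') * Real.sqrt (W x' y')) *
          (W x y' * W x' y) := by rw [e1, e2]
      _ = _ := by ring
  · congr 1
    refine sum_congr rfl fun x _ => sum_congr rfl fun y _ => ?_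
    exact Real.sq_sqrt (h0 x y)

theorem sum_l_sq (h0 : ∀ x y, 0 ≤ W x y) (h1 : ∀ x y, W x y ≤ 1) (hL : Eig (lad W) l f) :
    ∑ p, l p ^ 2 ≤ ∑ x, ∑ x', ∑ y, ∑ y', om W x x' y y' := by
  rw [hL.sum_sq, prod4]
  refine sum_le_sum fun x _ => sum_le_sum fun x' _ => sum_le_sum fun y _ =>
      sum_le_sum fun y' _ => ?_
  simp only [lad, om]
  have e1 := Real.mul_self_sqrt (h0 x y)
  have e2 := Real.mul_self_sqrt (h0 x' y')
  have e3 : 0 ≤ W x y' * W x' y := mul_nonneg (h0 _ _) (h0 _ _)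
  have e4 : W x y' * W x' y ≤ 1 := mul_le_one₀ (h1 _ _) (h0 _ _) (h1 _ _)
  calc _ = (Real.sqrt (W x y) * Real.sqrt (W x y)) * (Real.sqrt (W x' y') * Real.sqrt (W x' y')) *
          (W x y' * W x' y) * (W x y' * W x' y) := by ring
    _ = W x y * W x' y' * (W x y' * W x' y) * (W x y' * W x' y) := by rw [e1, e2]
    _ ≤ W x y * W x' y' * (W x y' * W x' y) * 1 := by
        refine mul_le_mul_of_nonneg_left e4 ?_
        exact mul_nonneg (mul_nonneg (h0 _ _) (h0 _ _)) e3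
    _ = _ := mul_one _

/-- the number of maps from the Moebius ladder, weighted -/
def ladSum (W : X → X → ℝ) (k : ℕ) [NeZero k] : ℝ :=
  ∑ w : ZMod k → X × X, ∏ i, (W (w i).1 (w i).2 *
    (W (w i).1 (w (i + 1)).2 * W (w (i + 1)).1 (w i).2))

theorem ladSum_eq (h0 : ∀ x y, 0 ≤ W x y) (hL : Eig (lad W) l f) (k : ℕ) [NeZero k] :
    ladSum W k = ∑ p, l p ^ k := by
  rw [← hL.cyc k, ladSum]
  refine sum_congr rfl fun w _ => ?_
  have h2 := Equiv.prod_comp (Equiv.addRight (1 : ZMod k))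
    (fun i => Real.sqrt (W (w i).1 (w i).2))
  simp only [Equiv.coe_addRight] at h2
  have h3 : ∏ i, W (w i).1 (w i).2 = (∏ i, Real.sqrt (W (w i).1 (w i).2)) *
      ∏ i, Real.sqrt (W (w (i + 1)).1 (w (i + 1)).2) := by
    rw [h2, ← prod_mul_distrib]
    exact prod_congr rfl fun i _ => (Real.mul_self_sqrt (h0 _ _)).symm
  have h4 : ∀ i : ZMod k, lad W (w i) (w (i + 1)) = Real.sqrt (W (w i).1 (w i).2) *
      Real.sqrt (W (w (i + 1)).1 (w (i + 1)).2) *
      (W (w i).1 (w (i + 1)).2 * W (w (i + 1)).1 (w i).2) := fun i => rfl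
  simp only [h4]
  simp only [prod_mul_distrib]
  rw [h3]

theorem odd_split (x : ℝ) {k : ℕ} (hk : Odd k) : x ^ k = max x 0 ^ k - max (-x) 0 ^ k := by
  have hk0 : k ≠ 0 := by rintro rfl; exact absurd hk (by decide)
  rcases le_total x 0 with h | h
  · rw [max_eq_right h, max_eq_left (neg_nonneg.mpr h), zero_pow hk0, hk.neg_pow]; ring
  · rw [max_eq_left h, max_eq_right (neg_nonpos.mpr h), zero_pow hk0]; ring

theorem ladSum_ge (h0 : ∀ x y, 0 ≤ W x y) (hL : Eig (lad W) l f) (k : ℕ) [NeZero k]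
    (hk : Odd k) (p₀ : X × X) (hp₀ : 0 ≤ l p₀) :
    l p₀ ^ k - ∑ p, max (-l p) 0 ^ k ≤ ladSum W k := by
  rw [ladSum_eq h0 hL k]
  have h2 : ∑ p, l p ^ k = ∑ p, max (l p) 0 ^ k - ∑ p, max (-l p) 0 ^ k := by
    rw [← sum_sub_distrib]
    exact sum_congr rfl fun p _ => odd_split _ hk
  rw [h2]
  have h3 : l p₀ ^ k ≤ ∑ p, max (l p) 0 ^ k := by
    have := single_le_sum (f := fun p => max (l p) 0 ^ k)
      (fun p _ => pow_nonneg (le_max_right _ _) k) (mem_univ p₀)
    simp only [max_eq_left hp₀] at this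
    exact this
  linarith

/-- the weighted inequality under the first condition -/
theorem ladder_one (hs : ∀ x y, W x y = W y x) (h0 : ∀ x y, 0 ≤ W x y) (h1 : ∀ x y, W x y ≤ 1)
    (hn : 0 < Fintype.card X) {p : ℝ} (hp0 : 0 < p)
    (hp : ∑ x, ∑ y, W x y = p * (Fintype.card X : ℝ) ^ 2) (k : ℕ) [NeZero k] (hk : Odd k)
    (hk5 : 5 ≤ k) :
    (∀ z : ℝ, 0 ≤ z → z ≤ 1 → 1 + (p⁻¹ * z) ^ k ≤ (1 + z ^ 4) ^ k) ∨
      256 ≤ ((k - 2 : ℕ) : ℝ) * p ^ 17 →
    p ^ (3 * k) * (Fintype.card X : ℝ) ^ (2 * k) ≤ ladSum W k := by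
  intro hcase
  obtain ⟨t, u, hW⟩ := exists_eig W hs
  obtain ⟨l, f, hL⟩ := exists_eig (lad W) (lad_symm W)
  set n : ℝ := (Fintype.card X : ℝ) with hndef
  have hn0 : 0 < n := by rw [hndef]; exact_mod_cast hn
  haveI : Nonempty X := Fintype.card_pos_iff.mp hn
  have hk0 : k ≠ 0 := by omega
  -- p ≤ 1
  have hp1 : p ≤ 1 := by
    have e : ∑ x : X, ∑ y : X, W x y ≤ ∑ x : X, ∑ y : X, (1 : ℝ) :=
      sum_le_sum fun x _ => sum_le_sum fun y _ => h1 x y
    simp only [sum_const, card_univ, nsmul_eq_mul, mul_one] at e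
    rw [hp, ← hndef] at e
    have : p * n ^ 2 ≤ 1 * n ^ 2 := by linarith [e, (by ring : n * n = 1 * n ^ 2)]
    exact le_of_mul_le_mul_right this (by positivity)
  -- the largest eigenvalues
  obtain ⟨i₀, hi₀⟩ := Finite.exists_max (fun i => |t i|)
  obtain ⟨p₀, hp₀⟩ := Finite.exists_max l
  set a : ℝ := |t i₀| with ha
  set L : ℝ := l p₀ with hLdef
  have han : p * n ≤ a := by
    have e := hW.quad_le (L := a) (fun i => (le_abs_self _).trans (hi₀ i)) (fun _ => 1)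
    simp only [one_mul, mul_one, one_pow, sum_const, card_univ, nsmul_eq_mul] at e
    rw [hp, ← hndef] at e
    have : p * n * n ≤ a * n := by linarith [e, (by ring : p * n ^ 2 = p * n * n)]
    exact le_of_mul_le_mul_right this hn0
  have ha0 : 0 < a := lt_of_lt_of_le (by positivity) han
  -- four-cycles
  have hc4 := sum_om_le h0 hL hp₀
  rw [sum_om hW, hp] at hc4
  set J : Finset X := univ.erase i₀ with hJ
  set z : X → ℝ := fun j => |t j| / a with hz
  have hz0 : ∀ j, 0 ≤ z j := fun j => by positivity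
  have hz1 : ∀ j, z j ≤ 1 := fun j => (div_le_one ha0).mpr (hi₀ j)
  have habs : ∀ j, |t j| = a * z j := fun j => by
    simp only [hz]; field_simp
  have hzi : z i₀ = 1 := by simp only [hz]; rw [← ha]; exact div_self ha0.ne'
  have hsplit : ∀ g : X → ℝ, ∑ j, g j = g i₀ + ∑ j ∈ J, g j := fun g => by
    rw [hJ, add_sum_erase univ g (mem_univ i₀)]
  have hc4' : ∑ i, t i ^ 4 = a ^ 4 * (1 + ∑ j ∈ J, z j ^ 4) := by
    have e1 : ∀ i, t i ^ 4 = a ^ 4 * z i ^ 4 := by
      intro i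
      rw [← mul_pow, ← habs, ← Even.pow_abs (by decide : Even 4)]
    simp only [e1]
    rw [hsplit, hzi, mul_add, mul_sum]
    ring
  rw [hc4'] at hc4
  have hpn2 : 0 < p * n ^ 2 := by positivity
  have hE0 : 0 ≤ ∑ j ∈ J, z j ^ 4 := sum_nonneg fun j _ => pow_nonneg (hz0 j) 4
  have hLge : a ^ 4 / (p * n ^ 2) * (1 + ∑ j ∈ J, z j ^ 4) ≤ L := by
    rw [div_mul_eq_mul_div, div_le_iff₀ hpn2]; exact hc4
  have hL0 : 0 ≤ L := le_trans (by positivity) hLge
  have hge := ladSum_ge h0 hL k hk p₀ hL0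
  -- the first regime
  have reg1 : (∀ j ∈ J, 1 + (p⁻¹ * z j) ^ k ≤ (1 + z j ^ 4) ^ k) →
      p ^ (3 * k) * n ^ (2 * k) ≤ ladSum W k := by
    intro hC
    have hnum := (num_sum J z p⁻¹ (by positivity) (by omega : 4 ≤ k) (fun j _ => hz0 j)
      (fun j _ => hz1 j) hC).1
    have hneg := neg_part h0 h1 hW hL hk0
    set Q : ℝ := ((1 + ∑ j ∈ J, z j ^ k) ^ 2 - (1 + ∑ j ∈ J, (z j ^ k) ^ 2)) / 2 with hQ
    have hpairs : 1 / 2 * ∑ i, ∑ j, (if i = j then 0 else |t i * t j| ^ k) = a ^ (2 * k) * Q := by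
      have e1 : ∀ i j : X, (if i = j then 0 else |t i * t j| ^ k) =
          a ^ (2 * k) * (z i ^ k * z j ^ k) - (if i = j then a ^ (2 * k) * (z i ^ k * z j ^ k)
            else 0) := by
        intro i j
        rw [abs_mul, habs, habs]
        split_ifs
        · ring
        · rw [sub_zero]; ring
      simp only [e1, sum_sub_distrib, sum_ite_eq, mem_univ, if_true]
      simp only [← mul_sum, ← sum_mul]
      rw [hsplit (fun j => z j ^ k), hsplit (fun j => z j ^ k * z j ^ k), hzi]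
      have e2 : ∀ j, (z j ^ k) ^ 2 = z j ^ k * z j ^ k := fun j => sq _
      simp only [hQ, e2, one_pow, mul_one]
      ring
    rw [hpairs] at hneg
    have hQ0 : 0 ≤ Q := by
      have e1 : 0 ≤ 1 / 2 * ∑ i, ∑ j, (if i = j then 0 else |t i * t j| ^ k) := by
        refine mul_nonneg (by norm_num) (sum_nonneg fun i _ => sum_nonneg fun j _ => ?_)
        split_ifs
        · exact le_refl _
        · positivity
      rw [hpairs] at e1
      exact nonneg_of_mul_nonneg_right e1 (by positivity)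
    have hLk : (a ^ 4 / (p * n ^ 2)) ^ k * (1 + p⁻¹ ^ k * Q) ≤ L ^ k := by
      calc (a ^ 4 / (p * n ^ 2)) ^ k * (1 + p⁻¹ ^ k * Q) ≤
            (a ^ 4 / (p * n ^ 2)) ^ k * (1 + ∑ j ∈ J, z j ^ 4) ^ k :=
            mul_le_mul_of_nonneg_left hnum (by positivity)
        _ = (a ^ 4 / (p * n ^ 2) * (1 + ∑ j ∈ J, z j ^ 4)) ^ k := by rw [mul_pow]
        _ ≤ L ^ k := pow_le_pow_left₀ (by positivity) hLge k
    have hA1 : p ^ (3 * k) * n ^ (2 * k) ≤ (a ^ 4 / (p * n ^ 2)) ^ k := by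
      have e1 : p ^ (3 * k) * n ^ (2 * k) = (p ^ 3 * n ^ 2) ^ k := by
        rw [mul_pow, ← pow_mul, ← pow_mul]
      rw [e1]
      refine pow_le_pow_left₀ (by positivity) ?_ k
      rw [le_div_iff₀ hpn2]
      calc p ^ 3 * n ^ 2 * (p * n ^ 2) = (p * n) ^ 4 := by ring
        _ ≤ a ^ 4 := pow_le_pow_left₀ (by positivity) han 4
    have hA2 : a ^ (2 * k) ≤ (a ^ 4 / (p * n ^ 2)) ^ k * p⁻¹ ^ k := by
      rw [← mul_pow, pow_mul]
      refine pow_le_pow_left₀ (by positivity) ?_ k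
      rw [div_mul_eq_mul_div, le_div_iff₀ hpn2, ← div_eq_mul_inv, le_div_iff₀ hp0]
      calc a ^ 2 * (p * n ^ 2) * p = a ^ 2 * (p * n) ^ 2 := by ring
        _ ≤ a ^ 2 * a ^ 2 := mul_le_mul_of_nonneg_left
            (pow_le_pow_left₀ (by positivity) han 2) (by positivity)
        _ = a ^ 4 := by ring
    have hA3 := mul_le_mul_of_nonneg_right hA2 hQ0
    have : (a ^ 4 / (p * n ^ 2)) ^ k * (1 + p⁻¹ ^ k * Q) =
        (a ^ 4 / (p * n ^ 2)) ^ k + (a ^ 4 / (p * n ^ 2)) ^ k * p⁻¹ ^ k * Q := by ring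
    linarith
  rcases hcase with hC | hbig
  · exact reg1 fun j _ => hC _ (hz0 j) (hz1 j)
  -- the second case
  by_cases hall : ∀ j ∈ J, z j ≤ p
  · refine reg1 fun j hj => cond_small p (z j) hp0 (hz0 j) (hall j hj) (by omega) ?_
    have e3 : p ^ 17 ≤ p ^ 4 := pow_le_pow_of_le_one hp0.le hp1 (by norm_num)
    have e4 : ((k - 2 : ℕ) : ℝ) ≤ k := by exact_mod_cast Nat.sub_le k 2
    have e5 : ((k - 2 : ℕ) : ℝ) * p ^ 17 ≤ k * p ^ 4 :=
      mul_le_mul e4 e3 (by positivity) (Nat.cast_nonneg _)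
    linarith
  · push Not at hall
    obtain ⟨j, hj, hjp⟩ := hall
    have hE : p ^ 4 ≤ ∑ j ∈ J, z j ^ 4 := by
      have e1 := single_le_sum (f := fun j => z j ^ 4) (fun j _ => pow_nonneg (hz0 j) 4) hj
      exact (pow_le_pow_left₀ hp0.le hjp.le 4).trans e1
    set m : ℝ := L / n ^ 2 with hm
    have hLm : L = m * n ^ 2 := by rw [hm]; field_simp
    have hmge : p ^ 3 * (1 + p ^ 4) ≤ m := by
      rw [hm, le_div_iff₀ (by positivity)]
      refine le_trans ?_ hLge
      have e1 : p ^ 3 * n ^ 2 ≤ a ^ 4 / (p * n ^ 2) := by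
        rw [le_div_iff₀ hpn2]
        calc p ^ 3 * n ^ 2 * (p * n ^ 2) = (p * n) ^ 4 := by ring
          _ ≤ a ^ 4 := pow_le_pow_left₀ (by positivity) han 4
      calc p ^ 3 * (1 + p ^ 4) * n ^ 2 = p ^ 3 * n ^ 2 * (1 + p ^ 4) := by ring
        _ ≤ a ^ 4 / (p * n ^ 2) * (1 + ∑ j ∈ J, z j ^ 4) :=
            mul_le_mul e1 (by linarith) (by positivity) (by positivity)
    have hm3 : p ^ 3 ≤ m := by
      have : 0 ≤ p ^ 3 * p ^ 4 := by positivity
      linarith [hmge, (by ring : p ^ 3 * (1 + p ^ 4) = p ^ 3 + p ^ 3 * p ^ 4)]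
    have hm0 : 0 < m := lt_of_lt_of_le (by positivity) hm3
    have hneg : ∀ q, max (-l q) 0 ≤ m * (1 - p ^ 15 / 128) * n ^ 2 := by
      intro q
      have hp15 : p ^ 15 ≤ 1 := pow_le_one₀ hp0.le hp1
      by_cases hq : l q < 0
      · rw [max_eq_left (by linarith)]
        have hg := gap h0 h1 hL hp₀ hn q hq
        rw [← hndef] at hg
        have hg' := gap_num p m (-l q / n ^ 2) hp0 hp1 hm3 (by
          have : 0 < -l q := by linarith
          positivity) (by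
          have e1 : (-l q) = (-l q / n ^ 2) * n ^ 2 := by field_simp
          have e2 : (-l q / n ^ 2) ^ 6 * n ^ 12 = (-l q) ^ 6 := by
            rw [div_pow, ← pow_mul]; field_simp
          have e3 : 2 * (m - -l q / n ^ 2) * n ^ 12 = 2 * n ^ 10 * (L + l q) := by
            rw [hLm]; field_simp; ring
          have e4 : (-l q / n ^ 2) ^ 6 * n ^ 12 ≤ 2 * (m - -l q / n ^ 2) * n ^ 12 := by
            rw [e2, e3]; exact hg
          exact le_of_mul_le_mul_right e4 (by positivity))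
        rwa [div_le_iff₀ (by positivity)] at hg'
      · rw [max_eq_right (by linarith)]
        have : 0 ≤ 1 - p ^ 15 / 128 := by linarith
        positivity
    obtain ⟨j', rfl⟩ : ∃ j', k = j' + 2 := ⟨k - 2, by omega⟩
    have hsum : ∑ q, max (-l q) 0 ^ (j' + 2) ≤
        (m * (1 - p ^ 15 / 128) * n ^ 2) ^ j' * (m * p * n ^ 4) := by
      have e1 : ∀ q, max (-l q) 0 ^ (j' + 2) ≤
          (m * (1 - p ^ 15 / 128) * n ^ 2) ^ j' * l q ^ 2 := by
        intro q
        rw [pow_add]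
        refine mul_le_mul (pow_le_pow_left₀ (le_max_right _ _) (hneg q) j') ?_
          (by positivity) (pow_nonneg (le_trans (le_max_right _ _) (hneg q)) j')
        rcases le_total (-l q) 0 with h | h
        · rw [max_eq_right h, zero_pow two_ne_zero]; positivity
        · rw [max_eq_left h]; exact le_of_eq (by ring)
      have e2 : ∑ q, l q ^ 2 ≤ m * p * n ^ 4 := by
        have e3 := (sum_l_sq h0 h1 hL).trans (sum_om_le h0 hL hp₀)
        rw [hp, hLm] at e3
        linarith [e3, (by ring : m * n ^ 2 * (p * n ^ 2) = m * p * n ^ 4)]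
      calc ∑ q, max (-l q) 0 ^ (j' + 2) ≤
            ∑ q, (m * (1 - p ^ 15 / 128) * n ^ 2) ^ j' * l q ^ 2 := sum_le_sum fun q _ => e1 q
        _ = (m * (1 - p ^ 15 / 128) * n ^ 2) ^ j' * ∑ q, l q ^ 2 := by rw [mul_sum]
        _ ≤ _ := mul_le_mul_of_nonneg_left e2
              (pow_nonneg (le_trans (le_max_right _ _) (hneg p₀)) j')
    have hfin := final_num p m hp0 hp1 hmge j' (by simpa using hbig)
    have hfin' := mul_le_mul_of_nonneg_right hfin (by positivity : 0 ≤ n ^ (2 * (j' + 2)))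
    have e5 : (p ^ (3 * (j' + 2)) + (m * (1 - p ^ 15 / 128)) ^ j' * (m * p)) *
        n ^ (2 * (j' + 2)) = p ^ (3 * (j' + 2)) * n ^ (2 * (j' + 2)) +
        (m * (1 - p ^ 15 / 128) * n ^ 2) ^ j' * (m * p * n ^ 4) := by
      rw [mul_pow (m * (1 - p ^ 15 / 128)) (n ^ 2) j', ← pow_mul]
      ring
    have e6 : m ^ (j' + 2) * n ^ (2 * (j' + 2)) = L ^ (j' + 2) := by
      rw [hLm, mul_pow, ← pow_mul]
    rw [e5, e6] at hfin'
    linarith

end main

end Vale.Agent.P050.H148
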