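import Vale.Agent.P050.H148.NearLaw

/-!
The debts of the two laws, and the better one.
-/

set_option linter.unusedSectionVars false

namespace Vale.Agent.P050.H148

open Finset Vale.Agent.P050.Lev Vale.Agent.P050.Cart Vale.Agent.P050.Join Vale.Agent.P050.Tmpl
  Vale.Agent.P050.Deg

variable {V U : Type} [Fintype V] [DecidableEq V] [Fintype U]

variable {m : Bool → U → ℝ} {π : U → U → ℝ} {H : SimpleGraph V} {s : V → Bool} {A D : Finset V}

/-- the debt of the leaves of one star -/
theorem debtA_le (hb : Base m π) (X : Finset V) {k n : ℕ} (S : Finset V)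
    (hS : ∀ b ∈ S, s b = true ∧ k ≤ (na H X b).card) {b₀ : V} (hb₀ : b₀ ∈ S)
    (hn : n + 1 ≤ S.card) :
    lf m π H s X ∅ univ ≤ gk V m π X.card - gk V m π (na H X b₀).card - n * gk V m π k := by
  classical
  have hle : ∀ b, (na H X b).card ≤ Fintype.card V := fun b => Finset.card_le_univ _
  unfold lf
  rw [Finset.empty_inter, Finset.card_empty]
  have e1 : ∀ b, ((na H (∅ : Finset V) b).card : ℝ) = 0 := by
    intro b
    have : na H (∅ : Finset V) b = ∅ := by
      ext x
      rw [mem_na]
      simp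
    rw [this]
    simp
  simp only [e1, Nat.cast_zero, zero_mul, add_zero]
  have hsub : S ⊆ univ.filter (fun b => s b = true) := fun b hb' => by
    rw [Finset.mem_filter]
    exact ⟨mem_univ _, (hS b hb').1⟩
  have h1 : ∑ b ∈ S, gk V m π (na H X b).card ≤
      ∑ b ∈ univ.filter (fun b => s b = true), gk V m π (na H X b).card :=
    Finset.sum_le_sum_of_subset_of_nonneg hsub fun b _ _ => gk_nonneg (V := V) hb _ (hle b)
  have h2 : gk V m π (na H X b₀).card + n * gk V m π k ≤ ∑ b ∈ S, gk V m π (na H X b).card := by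
    rw [← Finset.add_sum_erase S _ hb₀]
    have h3 : (S.erase b₀).card • gk V m π k ≤ ∑ b ∈ S.erase b₀, gk V m π (na H X b).card :=
      Finset.card_nsmul_le_sum _ _ _ fun b hb' =>
        gk_mono hb (hS b (Finset.mem_of_mem_erase hb')).2 (hle b)
    rw [nsmul_eq_mul] at h3
    have h4 : (n : ℝ) ≤ ((S.erase b₀).card : ℝ) := by
      rw [Finset.card_erase_of_mem hb₀]
      exact_mod_cast (by omega : n ≤ S.card - 1)
    have h5 : 0 ≤ gk V m π k := gk_nonneg (V := V) hb _ ((hS b₀ hb₀).2.trans (hle b₀))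
    nlinarith
  linarith

/-- the difference in terms of the information of an edge -/
theorem gk_diff (hb : Base m π) (X : Finset V) {c : ℕ} {b₀ : V}
    (hc : X.card ≤ (na H X b₀).card + c) :
    gk V m π X.card - gk V m π (na H X b₀).card ≤ (c : ℝ) * ii m π := by
  classical
  have hV : 1 ≤ Fintype.card V := Fintype.card_pos_iff.2 ⟨b₀⟩
  have hI : 0 ≤ ii m π := by
    have h1 := gk_step_le (V := V) hb 0 hV
    have h2 := gk_step (V := V) hb 0 hV
    linarith
  have hXle : X.card ≤ Fintype.card V := Finset.card_le_univ _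
  have hnaX : (na H X b₀).card ≤ X.card := Finset.card_le_card fun x hx => (mem_na.1 hx).1
  have h3 := gk_upper (V := V) hb hnaX hXle
  have h4 : ((X.card : ℝ) - (na H X b₀).card) * ii m π ≤ c * ii m π := by
    refine mul_le_mul_of_nonneg_right ?_ hI
    have : (X.card : ℝ) ≤ (na H X b₀).card + c := by exact_mod_cast hc
    linarith
  linarith

/-- the debt of the law with copies of one more leaf -/
theorem debtC_le (hb : Base m π) (hAD : Disjoint A D) (hD : D.Nonempty) (F : Finset V)
    (hF : ∀ b ∈ F, s b = true ∧ ∀ a ∈ A, H.Adj b a) {j : ℕ}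
    (hc : D.card ≤ ∑ b ∈ F, (na H D b).card + j) :
    lf m π H s A D univ ≤ (j : ℝ) * gk V m π (A.card + 1) := by
  classical
  obtain ⟨d₀, hd₀⟩ := hD
  have hAc : A.card + 1 ≤ Fintype.card V := by
    have h1 : d₀ ∉ A := fun h1 => (Finset.disjoint_left.1 hAD) h1 hd₀
    have h2 := Finset.card_le_univ (insert d₀ A)
    rwa [Finset.card_insert_of_notMem h1] at h2
  have hg := gk_nonneg (V := V) hb A.card (by omega)
  have hst := gk_step (V := V) hb A.card hAc
  have hk : ∀ b, (na H A b).card ≤ A.card := fun b =>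
    Finset.card_le_card fun x hx => (mem_na.1 hx).1
  unfold lf
  rw [Finset.inter_univ]
  set f : V → ℝ := fun b => gk V m π (na H A b).card + ((na H D b).card : ℝ) *
    (gk V m π ((na H A b).card + 1) - gk V m π (na H A b).card) with hf
  have hf0 : ∀ b, 0 ≤ f b := by
    intro b
    have h1 := gk_nonneg (V := V) hb (na H A b).card (by have := hk b; omega)
    have h2 := gk_step (V := V) hb (na H A b).card (by have := hk b; omega)
    have h3 : (0 : ℝ) ≤ ((na H D b).card : ℝ) := Nat.cast_nonneg _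
    simp only [hf]
    nlinarith
  have hsub : F ⊆ univ.filter (fun b => s b = true) := fun b hb' => by
    rw [Finset.mem_filter]
    exact ⟨mem_univ _, (hF b hb').1⟩
  have h1 : ∑ b ∈ F, f b ≤ ∑ b ∈ univ.filter (fun b => s b = true), f b :=
    Finset.sum_le_sum_of_subset_of_nonneg hsub fun b _ _ => hf0 b
  have h2 : ∀ b ∈ F, f b = gk V m π A.card + ((na H D b).card : ℝ) *
      (gk V m π (A.card + 1) - gk V m π A.card) := by
    intro b hb'
    have : na H A b = A := by
      ext x
      rw [mem_na]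
      exact ⟨fun h' => h'.1, fun h' => ⟨h', (hF b hb').2 x h'⟩⟩
    simp only [hf, this]
  rw [Finset.sum_congr rfl h2, Finset.sum_add_distrib, Finset.sum_const, nsmul_eq_mul,
    ← Finset.sum_mul] at h1
  have h3 : (D.card : ℝ) ≤ ∑ b ∈ F, ((na H D b).card : ℝ) + j := by
    exact_mod_cast hc
  rcases F.eq_empty_or_nonempty with hF0 | hF0
  · rw [hF0, Finset.sum_empty] at h3
    rw [hF0] at h1
    simp only [Finset.card_empty, Nat.cast_zero, zero_mul, Finset.sum_empty, add_zero] at h1
    have h5 : (1 : ℝ) ≤ D.card := by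
      exact_mod_cast Finset.card_pos.2 ⟨d₀, hd₀⟩
    nlinarith
  · have h4 : (1 : ℝ) ≤ (F.card : ℝ) := by
      exact_mod_cast Finset.card_pos.2 hF0
    have h6 : (0 : ℝ) ≤ j := Nat.cast_nonneg _
    nlinarith

/-- the law of `K_{2,M}` -/
theorem k2_law (hb : Base m π) (M : ℕ) :
    ∃ ν : (Fin 2 ⊕ Fin M → U) → ℝ, DebtLaw
      (sideEdges (completeBipartiteGraph (Fin 2) (Fin M)) (Sum.elim (fun _ => true) fun _ => false))
      (Sum.elim (fun _ => true) fun _ => false) m π (- gk (Fin 2 ⊕ Fin M) m π M) ν := by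
  classical
  set s' : Fin 2 ⊕ Fin M → Bool := Sum.elim (fun _ => true) fun _ => false with hs'
  set K := completeBipartiteGraph (Fin 2) (Fin M) with hK
  have hs : ∀ u v, K.Adj u v → s' u ≠ s' v := by
    rintro (u | u) (v | v) h
    · simp [hK] at h
    · simp [hs']
    · simp [hs']
    · simp [hK] at h
  set X : Finset (Fin 2 ⊕ Fin M) := univ.filter fun v => s' v = false with hX
  have memX : ∀ v, v ∈ X ↔ s' v = false := fun v => by rw [hX, Finset.mem_filter]; simp
  have cX : X.card = M := by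
    have : X = (univ : Finset (Fin M)).image Sum.inr := by
      ext v
      rw [memX, Finset.mem_image]
      rcases v with v | v
      · simp [hs']
      · simp [hs']
    rw [this, Finset.card_image_of_injective _ Sum.inr_injective, Finset.card_univ,
      Fintype.card_fin]
  obtain ⟨Ω, _, P, Z, h⟩ := exists_tb hb hs X ∅ (Finset.disjoint_empty_right _)
    (fun v => by rw [memX]; simp) (fun _ => 0) (by simp) (by simp)
  refine debtLaw_of_tb h.tb hb ?_
  unfold lf
  rw [Finset.empty_inter, Finset.card_empty, cX]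
  have e1 : ∀ b, ((na K (∅ : Finset (Fin 2 ⊕ Fin M)) b).card : ℝ) = 0 := by
    intro b
    have : na K (∅ : Finset (Fin 2 ⊕ Fin M)) b = ∅ := by
      ext x
      rw [mem_na]
      simp
    rw [this]
    simp
  simp only [e1, Nat.cast_zero, zero_mul, add_zero]
  have e2 : ∀ b ∈ univ.filter (fun b => s' b = true), gk (Fin 2 ⊕ Fin M) m π (na K X b).card =
      gk (Fin 2 ⊕ Fin M) m π M := by
    intro b hb'
    have : na K X b = X := by
      ext x
      rw [mem_na, memX]
      rw [Finset.mem_filter] at hb'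
      rcases b with b | b
      · rcases x with x | x
        · simp [hs']
        · simp [hs', hK]
      · simp [hs'] at hb'
    rw [this, cX]
  have e3 : (univ.filter (fun b => s' b = true)).card = 2 := by
    have : univ.filter (fun b => s' b = true) = (univ : Finset (Fin 2)).image Sum.inl := by
      ext v
      rw [Finset.mem_filter, Finset.mem_image]
      rcases v with v | v
      · simp [hs']
      · simp [hs']
    rw [this, Finset.card_image_of_injective _ Sum.inl_injective, Finset.card_univ,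
      Fintype.card_fin]
  rw [Finset.sum_congr rfl e2, Finset.sum_const, e3, nsmul_eq_mul]
  push_cast
  linarith

/-- **The two laws of `H`.** -/
theorem two_laws (hb : Base m π) (hs : ∀ u v, H.Adj u v → s u ≠ s v) (A D : Finset V)
    (hAD : Disjoint A D) (hside : ∀ v, s v = false ↔ v ∈ A ∨ v ∈ D) (hD : D.Nonempty)
    (r : V → ℕ) (hr : ∀ d ∈ D, ∀ e ∈ D, r d = r e → d = e)
    (hRI : ∀ d ∈ D, ∃ e ∈ D, ∀ b, H.Adj b d → (∃ f ∈ D, r f < r d ∧ H.Adj b f) →
      r e < r d ∧ H.Adj b e) (F : Finset V) (hF : ∀ b ∈ F, s b = true ∧ ∀ a ∈ A, H.Adj b a)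
    {j n : ℕ} (hj : D.card ≤ ∑ b ∈ F, (na H D b).card + j) (S : Finset V)
    (hS : ∀ b ∈ S, s b = true ∧ A.card + 1 ≤ (na H (A ∪ D) b).card) {b₀ : V} (hb₀ : b₀ ∈ S)
    (hn : n + 1 ≤ S.card) :
    (∃ ν : (V → U) → ℝ, DebtLaw (sideEdges H s) s m π (j * gk V m π (A.card + 1)) ν) ∧
    (∃ ν : (V → U) → ℝ, DebtLaw (sideEdges H s) s m π (gk V m π (A ∪ D).card -
      gk V m π (na H (A ∪ D) b₀).card - n * gk V m π (A.card + 1)) ν) := by
  classical
  constructor
  · obtain ⟨Ω, _, P, Z, h⟩ := exists_tb hb hs A D hAD hside r hr hRI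
    exact debtLaw_of_tb h.tb hb (debtC_le hb hAD hD F hF hj (H := H) (s := s))
  · obtain ⟨Ω, _, P, Z, h⟩ := exists_tb hb hs (A ∪ D) ∅ (Finset.disjoint_empty_right _)
      (fun v => by rw [hside, Finset.mem_union]; simp) r (by simp) (by simp)
    exact debtLaw_of_tb h.tb hb (debtA_le hb (A ∪ D) S hS hb₀ hn (H := H))

end Vale.Agent.P050.H148
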