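import Vale.Agent.P050.Lev.KSid

/-!
Statement-level definitions.
-/

namespace Vale.Agent.P050.H148

open Finset Vale.Agent.P050.Lev

/-- The mean of the kernel `W`, with weights `m false` and `m true` on its two sides. -/
noncomputable def kernelMean {U : Type} [Fintype U] (m : Bool → U → ℝ) (W : U → U → ℝ) : ℝ :=
  ∑ x, ∑ y, m false x * m true y * W x y

/-- The homomorphism density in the kernel `W`, with weights `m false` and `m true` on its two
sides, of the bipartite graph `H`, whose parts are given by `s`. -/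
noncomputable def kernelDensity {V : Type} [Fintype V] [DecidableEq V] (H : SimpleGraph V)
    (s : V → Bool) {U : Type} [Fintype U] (m : Bool → U → ℝ) (W : U → U → ℝ) : ℝ :=
  ∑ z : V → U, (∏ v, m (s v) (z v)) * ∏ e ∈ sideEdges H s, W (z e.1) (z e.2)

/-- The two-sided inequality `p ^ K ≤ t(H) ^ N` for all kernels with values in `[0, 1]` and mean
`p`. -/
def NearSid {V : Type} [Fintype V] [DecidableEq V] (H : SimpleGraph V) (s : V → Bool)
    (K N : ℕ) : Prop :=
  (∀ u v, H.Adj u v → s u ≠ s v) ∧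
  ∀ (U : Type) [Fintype U] (m : Bool → U → ℝ) (W : U → U → ℝ), (∀ b x, 0 ≤ m b x) →
    (∀ b, ∑ x, m b x = 1) → (∀ x y, 0 ≤ W x y) → (∀ x y, W x y ≤ 1) →
      kernelMean m W ^ K ≤ kernelDensity H s m W ^ N

/-- the sides of `K_{2,M}`, the part with `M` vertices being on the side `σ` -/
def k2side (σ : Bool) (M : ℕ) : Fin 2 ⊕ Fin M → Bool := Sum.elim (fun _ => !σ) (fun _ => σ)

/-- The two-sided inequality `p ^ (N e(H) + 2 M j) ≤ t(H) ^ N t(K_{2,M}) ^ j` for all nonnegative
kernels, `p` being the mean: the disjoint union of `N` copies of `H` and `j` copies of `K_{2,M}`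
satisfies the two-sided Sidorenko inequality. -/
def WithK2 {V : Type} [Fintype V] [DecidableEq V] (H : SimpleGraph V) (s : V → Bool) (σ : Bool)
    (N j M : ℕ) : Prop :=
  (∀ u v, H.Adj u v → s u ≠ s v) ∧
  ∀ (U : Type) [Fintype U] (m : Bool → U → ℝ) (W : U → U → ℝ), (∀ b x, 0 ≤ m b x) →
    (∀ b, ∑ x, m b x = 1) → (∀ x y, 0 ≤ W x y) →
      kernelMean m W ^ (N * Nat.card H.edgeSet + 2 * M * j) ≤
        kernelDensity H s m W ^ N *
          kernelDensity (completeBipartiteGraph (Fin 2) (Fin M)) (k2side σ M) m W ^ j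

end Vale.Agent.P050.H148
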