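import Vale.Agent.P050.Deg.Assemble

/-!
The total correlation of the leaves of a star: upper bound for the increments, independence of the
ambient set.
-/

set_option linter.unusedSectionVars false

namespace Vale.Agent.P050.H148

open Finset Vale.Agent.P050.Lev Vale.Agent.P050.Cart Vale.Agent.P050.Join Vale.Agent.P050.Tmpl
  Vale.Agent.P050.Deg

variable {V U : Type} [Fintype V] [DecidableEq V] [Fintype U] {m : Bool → U → ℝ}
  {π : U → U → ℝ}

/-- one more leaf increases the total correlation by at most the information of an edge -/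
theorem gk_step_le (h : Base m π) (k : ℕ) (hk : k + 1 ≤ Fintype.card V) :
    gk V m π (k + 1) - gk V m π k ≤ ii m π := by
  classical
  obtain ⟨T, _, hT⟩ := Finset.exists_subset_card_eq (s := (univ : Finset V)) (n := k + 1)
    (by rwa [Finset.card_univ])
  obtain ⟨a, D, ha, rfl, hD⟩ := Finset.card_eq_succ.1 hT
  have g1 := gk_card (V := V) (m := m) (π := π) (insert a D)
  have g2 := gk_card (V := V) (m := m) (π := π) D
  rw [hT] at g1
  rw [hD] at g2
  have e1 := ent_sc h (V := V) (insert a D)
  have e2 := ent_sc h (V := V) D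
  rw [hT] at e1
  rw [hD] at e2
  have h1 := ent_submod (st1_nonneg h (A := V)) (mz ZS (insert a D)) (fun ω => ω.1.2) (mz ZS D)
  have f1 : ent (st1 V π) (fun ω => (mz ZS (insert a D) ω, ω.1.2, mz ZS D ω)) =
      ent (st1 V π) (fun ω => (mz ZS (insert a D) ω, ω.1.2)) := by
    refine ent_fib fun ω ω' => ?_
    simp only [Prod.mk.injEq, mz_eq]
    constructor
    · exact fun h' => ⟨h'.1, h'.2.1⟩
    · exact fun h' => ⟨h'.1, h'.2, fun v hv => h'.1 v (Finset.mem_insert_of_mem hv)⟩
  have f2 : ent (st1 V π) (fun ω => (mz ZS (insert a D) ω, mz ZS D ω)) =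
      ent (st1 V π) (fun ω => mz ZS (insert a D) ω) := by
    refine ent_fib fun ω ω' => ?_
    simp only [Prod.mk.injEq, mz_eq]
    constructor
    · exact fun h' => h'.1
    · exact fun h' => ⟨h', fun v hv => h' v (Finset.mem_insert_of_mem hv)⟩
  have f3 : ent (st1 V π) (fun ω => (ω.1.2, mz ZS D ω)) =
      ent (st1 V π) (fun ω => (mz ZS D ω, ω.1.2)) := by
    refine ent_fib fun ω ω' => ?_
    simp only [Prod.mk.injEq, mz_eq]
    exact and_comm
  rw [f1, f2, f3, e1, e2] at h1
  unfold sf he at g1 g2
  unfold ii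
  push_cast at h1 g1 g2 ⊢
  linarith

/-- the total correlation of the leaves is monotone -/
theorem gk_mono (hb : Base m π) {k l : ℕ} (hkl : k ≤ l) (hl : l ≤ Fintype.card V) :
    gk V m π k ≤ gk V m π l := by
  induction l with
  | zero =>
    rw [Nat.le_zero.1 hkl]
  | succ l ih =>
    rcases Nat.lt_or_ge k (l + 1) with h1 | h1
    · have h2 := ih (by omega) (by omega)
      have h3 := gk_step (V := V) hb l hl
      linarith
    · rw [le_antisymm hkl h1]

theorem gk_upper (hb : Base m π) {k l : ℕ} (hkl : k ≤ l) (hl : l ≤ Fintype.card V) :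
    gk V m π l ≤ gk V m π k + ((l : ℝ) - k) * ii m π := by
  induction l with
  | zero =>
    rw [Nat.le_zero.1 hkl]
    simp
  | succ l ih =>
    rcases Nat.lt_or_ge k (l + 1) with h1 | h1
    · have h2 := ih (by omega) (by omega)
      have h3 := gk_step_le (V := V) hb l hl
      push_cast
      linarith
    · rw [le_antisymm hkl h1]
      simp

section marg

variable {J : Type} [Fintype J] [DecidableEq J]

/-- restriction along `e` maps product laws to product laws -/
def Marg {V' : Type} [Fintype V'] [DecidableEq V'] (U : Type) [Fintype U] (e : V → V') : Prop :=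
  ∀ K : U → ℝ, ∑ u, K u = 1 → ∀ G : (V → U) → ℝ,
    ∑ z : V' → U, (∏ v, K (z v)) * G (fun v => z (e v)) = ∑ z : V → U, (∏ v, K (z v)) * G z

theorem sum_prod_one {J : Type} [Fintype J] [DecidableEq J] (K : U → ℝ) (hK : ∑ u, K u = 1) :
    ∑ w : J → U, ∏ j, K (w j) = 1 := by
  have := (Finset.prod_univ_sum (fun _ : J => (univ : Finset U)) (fun _ u => K u)).symm
  rw [Fintype.piFinset_univ] at this
  rw [this]
  exact Finset.prod_eq_one fun j _ => hK

theorem marg_inl : Marg U (Sum.inl : V → V ⊕ J) := by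
  intro K hK G
  rw [← (Equiv.sumArrowEquivProdArrow V J U).symm.sum_comp, Fintype.sum_prod_type]
  refine Finset.sum_congr rfl fun z _ => ?_
  have h1 : ∀ w : J → U, (∏ v, K ((Equiv.sumArrowEquivProdArrow V J U).symm (z, w) v)) *
      G (fun v => (Equiv.sumArrowEquivProdArrow V J U).symm (z, w) (Sum.inl v)) =
      (∏ v, K (z v)) * G z * ∏ j, K (w j) := by
    intro w
    rw [Fintype.prod_sum_type]
    show (∏ v, K (z v)) * (∏ j, K (w j)) * G z = _
    ring
  simp only [h1]
  rw [← Finset.mul_sum, sum_prod_one K hK, mul_one]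

theorem marg_inr : Marg U (Sum.inr : V → J ⊕ V) := by
  intro K hK G
  rw [← (Equiv.sumArrowEquivProdArrow J V U).symm.sum_comp, Fintype.sum_prod_type, Finset.sum_comm]
  refine Finset.sum_congr rfl fun z _ => ?_
  have h1 : ∀ w : J → U, (∏ v, K ((Equiv.sumArrowEquivProdArrow J V U).symm (w, z) v)) *
      G (fun v => (Equiv.sumArrowEquivProdArrow J V U).symm (w, z) (Sum.inr v)) =
      (∏ v, K (z v)) * G z * ∏ j, K (w j) := by
    intro w
    rw [Fintype.prod_sum_type]
    show (∏ j, K (w j)) * (∏ v, K (z v)) * G z = _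
    ring
  simp only [h1]
  rw [← Finset.mul_sum, sum_prod_one K hK, mul_one]

theorem gk_marg {V' : Type} [Fintype V'] [DecidableEq V'] (hb : Base m π) {e : V → V'}
    (he : Function.Injective e) (hM : Marg U e) {k : ℕ} (hk : k ≤ Fintype.card V) :
    gk V' m π k = gk V m π k := by
  classical
  obtain ⟨D, _, hD⟩ := Finset.exists_subset_card_eq (s := (univ : Finset V)) (n := k)
    (by rwa [Finset.card_univ])
  have g1 := gk_card (V := V) (m := m) (π := π) D
  have g2 := gk_card (V := V') (m := m) (π := π) (D.image e)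
  rw [Finset.card_image_of_injective _ he] at g2
  rw [hD] at g1 g2
  rw [g1, g2]
  congr 1
  unfold sf Tmpl.he
  -- restriction of the star
  have key : ∀ F : (U × U) × (V → U) → ℝ,
      ∑ ω, st1 V' π ω * F (ω.1, fun v => ω.2 (e v)) = ∑ ω, st1 V π ω * F ω := by
    intro F
    have l1 : ∑ ω, st1 V' π ω * F (ω.1, fun v => ω.2 (e v)) =
        ∑ p : U × U, ∑ z : V' → U, st1 V' π (p, z) * F (p, fun v => z (e v)) :=
      Fintype.sum_prod_type _
    have l2 : ∑ ω, st1 V π ω * F ω =
        ∑ p : U × U, ∑ z : V → U, st1 V π (p, z) * F (p, z) :=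
      Fintype.sum_prod_type _
    rw [l1, l2]
    refine Finset.sum_congr rfl fun p _ => ?_
    by_cases h0 : pb π p = 0
    · simp [st1, cpy, h0]
    have h1 : ∑ u, ker (pb π) Prod.snd Prod.fst p.2 u = 1 :=
      sum_ker _ _ (mar_ne_zero (pb_nonneg hb) Prod.snd h0)
    have h2 := hM (fun u => ker (pb π) Prod.snd Prod.fst p.2 u) h1 fun z => F (p, z)
    simp only [st1, cpy, mul_assoc]
    rw [← Finset.mul_sum, ← Finset.mul_sum, h2]
  have e1 : ent (st1 V' π) (mz ZS (D.image e)) =
      ent (st1 V' π) (fun ω => mz ZS D (ω.1, fun v => ω.2 (e v))) := by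
    refine ent_fib fun ω ω' => ?_
    rw [mz_eq, mz_eq]
    simp only [ZS, Option.some.injEq, Finset.mem_image]
    constructor
    · exact fun h v hv => h _ ⟨v, hv, rfl⟩
    · rintro h _ ⟨v, hv, rfl⟩
      exact h v hv
  rw [e1]
  exact ent_law fun a => mar_of_sum (fun F => key fun ω => F (mz ZS D ω)) a

/-- the total correlation of `k` leaves does not depend on the ambient set -/
theorem gk_type {V' : Type} [Fintype V'] [DecidableEq V'] (hb : Base m π) {k : ℕ}
    (hk : k ≤ Fintype.card V) (hk' : k ≤ Fintype.card V') : gk V' m π k = gk V m π k := by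
  rw [← gk_marg (V := V) (V' := V' ⊕ V) hb Sum.inr_injective marg_inr hk,
    ← gk_marg (V := V') (V' := V' ⊕ V) hb Sum.inl_injective marg_inl hk']

end marg

end Vale.Agent.P050.H148
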