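import Vale.Agent.P050.H148.NearDebt
import Vale.Agent.P050.H148.NearDefs

/-!
From laws with small debt to graphs.
-/

set_option linter.unusedSectionVars false

namespace Vale.Agent.P050.H148

open Finset Vale.Agent.P050.Lev Vale.Agent.P050.Cart Vale.Agent.P050.Join Vale.Agent.P050.Tmpl
  Vale.Agent.P050.Deg Vale.Agent.P050

section kernel

variable {V : Type} [Fintype V] [DecidableEq V] {H : SimpleGraph V} {s : V → Bool}
  {U : Type} [Fintype U] {m : Bool → U → ℝ} {W : U → U → ℝ}

theorem kd_eq : kernelDensity H s m W = tW (sideEdges H s) s m W := rfl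

theorem kp_eq : kernelMean m W = pW m W := rfl

theorem kd_nonneg (hm : ∀ b x, 0 ≤ m b x) (hW : ∀ x y, 0 ≤ W x y) : 0 ≤ kernelDensity H s m W :=
  Finset.sum_nonneg fun _ _ => mul_nonneg (Finset.prod_nonneg fun _ _ => hm _ _)
    (Finset.prod_nonneg fun _ _ => hW _ _)

theorem kp_nonneg (hm : ∀ b x, 0 ≤ m b x) (hW : ∀ x y, 0 ≤ W x y) : 0 ≤ kernelMean m W :=
  Finset.sum_nonneg fun _ _ => Finset.sum_nonneg fun _ _ =>
    mul_nonneg (mul_nonneg (hm _ _) (hm _ _)) (hW _ _)

/-- exchange of the sides -/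
theorem kp_flip : kernelMean m W = kernelMean (fun b => m (!b)) (fun x y => W y x) := by
  unfold kernelMean
  rw [Finset.sum_comm]
  refine Finset.sum_congr rfl fun x _ => Finset.sum_congr rfl fun y _ => ?_
  simp only [Bool.not_false, Bool.not_true]
  ring

theorem kd_flip : kernelDensity H (fun v => !s v) m W =
    kernelDensity H s (fun b => m (!b)) (fun x y => W y x) := by
  classical
  unfold kernelDensity
  have e : (sideEdges H fun v => !s v) = (sideEdges H s).image Prod.swap := by
    ext ⟨u, v⟩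
    simp only [sideEdges, Finset.mem_filter, Finset.mem_univ, true_and, Finset.mem_image,
      Bool.not_eq_false', Bool.not_eq_true']
    constructor
    · rintro ⟨h1, h2, h3⟩
      exact ⟨(v, u), ⟨h1.symm, h3, h2⟩, rfl⟩
    · rintro ⟨⟨a, b⟩, ⟨h1, h2, h3⟩, h4⟩
      simp only [Prod.swap_prod_mk, Prod.mk.injEq] at h4
      obtain ⟨rfl, rfl⟩ := h4
      exact ⟨h1.symm, h3, h2⟩
  rw [e]
  refine Finset.sum_congr rfl fun z _ => ?_
  congr 1
  rw [Finset.prod_image fun x _ y _ hxy => Prod.swap_injective hxy]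
  rfl

theorem kd_no_edge (hm1 : ∀ b, ∑ x, m b x = 1) (h : (sideEdges H s).card = 0) :
    kernelDensity H s m W = 1 := by
  classical
  unfold kernelDensity
  rw [Finset.card_eq_zero.1 h]
  simp only [Finset.prod_empty, mul_one]
  have h3 := (Finset.prod_univ_sum (fun _ : V => (univ : Finset U))
    (fun v x => m (s v) x)).symm
  rw [Fintype.piFinset_univ] at h3
  rw [h3]
  simp [hm1]

/-- the density of a kernel with values in `[0, 1]` -/
theorem kp_le_one (hm : ∀ b x, 0 ≤ m b x) (hm1 : ∀ b, ∑ x, m b x = 1)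
    (hW1 : ∀ x y, W x y ≤ 1) : kernelMean m W ≤ 1 := by
  calc ∑ x, ∑ y, m false x * m true y * W x y ≤ ∑ x, ∑ y, m false x * m true y :=
        Finset.sum_le_sum fun x _ => Finset.sum_le_sum fun y _ =>
          mul_le_of_le_one_right (mul_nonneg (hm _ _) (hm _ _)) (hW1 _ _)
    _ = 1 := by
        simp_rw [← Finset.mul_sum]
        rw [hm1 true]
        simp [hm1 false]

end kernel

section graph

variable {U : Type*} [Finite U] [Nonempty U]

/-- a finite graph as a kernel -/
theorem exists_kernel (G : SimpleGraph U) : ∃ (n : ℕ) (m : Bool → Fin n → ℝ)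
    (W : Fin n → Fin n → ℝ), (∀ b x, 0 ≤ m b x) ∧ (∀ b, ∑ x, m b x = 1) ∧ (∀ x y, 0 ≤ W x y) ∧
    (∀ x y, W x y ≤ 1) ∧ kernelMean m W = edgeDensity G ∧
    ∀ (V : Type) [Fintype V] [DecidableEq V] (H : SimpleGraph V) (s : V → Bool),
      (∀ u v, H.Adj u v → s u ≠ s v) → kernelDensity H s m W = homDensity H G := by
  classical
  have := Fintype.ofFinite U
  set n := Fintype.card U with hn
  have hn0 : (0 : ℝ) < n := by
    rw [hn]
    exact_mod_cast Fintype.card_pos
  let φ : U ≃ Fin n := Fintype.equivFin U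
  let W : Fin n → Fin n → ℝ := fun i j => if G.Adj (φ.symm i) (φ.symm j) then 1 else 0
  refine ⟨n, fun _ _ => 1 / n, W, fun _ _ => by positivity, fun _ => by simp [hn0.ne'],
    fun i j => by simp only [W]; split_ifs <;> norm_num,
    fun i j => by simp only [W]; split_ifs <;> norm_num, ?_, ?_⟩
  · have h1 : ∑ i, ∑ j, W i j = 2 * (Nat.card G.edgeSet : ℝ) := by
      have h2 : ∑ i, ∑ j, W i j = ∑ u, ∑ v, (if G.Adj u v then (1 : ℝ) else 0) := by
        rw [← Equiv.sum_comp φ]
        refine Finset.sum_congr rfl fun u _ => ?_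
        rw [← Equiv.sum_comp φ]
        refine Finset.sum_congr rfl fun v _ => ?_
        simp [W]
      rw [h2, Nat.card_eq_fintype_card, ← SimpleGraph.edgeFinset_card]
      have h3 := G.sum_degrees_eq_twice_card_edges
      have h4 : ((∑ u, G.degree u : ℕ) : ℝ) = ((2 * G.edgeFinset.card : ℕ) : ℝ) := by
        rw [h3]
      push_cast at h4
      rw [← h4]
      refine Finset.sum_congr rfl fun u _ => ?_
      rw [Finset.sum_boole, ← SimpleGraph.card_neighborFinset_eq_degree]
      congr 2
      ext v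
      simp
    unfold kernelMean
    simp_rw [← Finset.mul_sum]
    rw [h1]
    unfold edgeDensity
    rw [Nat.card_eq_fintype_card (α := U), ← hn]
    field_simp
  · intro V _ _ H s hs
    unfold kernelDensity
    have h1 : ∀ z : V → Fin n, ∏ e ∈ sideEdges H s, W (z e.1) (z e.2)
        = if (∀ e ∈ sideEdges H s, G.Adj (φ.symm (z e.1)) (φ.symm (z e.2))) then 1 else 0 := by
      intro z
      simp only [W]
      rw [Finset.prod_ite_zero]
      simp
    simp_rw [h1, ← Finset.mul_sum]
    rw [Finset.sum_boole, Finset.prod_const, Finset.card_univ]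
    unfold homDensity
    rw [Nat.card_eq_fintype_card (α := U), ← hn, Nat.card_eq_fintype_card (α := V)]
    have h2 : Nat.card (H →g G) = (univ.filter fun z : V → Fin n =>
        ∀ e ∈ sideEdges H s, G.Adj (φ.symm (z e.1)) (φ.symm (z e.2))).card := by
      rw [← Fintype.card_subtype, ← Nat.card_eq_fintype_card]
      refine Nat.card_congr ⟨fun f => ⟨fun v => φ (f v), ?_⟩, fun z => ⟨fun v => φ.symm (z.1 v), ?_⟩,
        ?_, ?_⟩
      · intro e he
        simp only [sideEdges, Finset.mem_filter, Finset.mem_univ, true_and] at he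
        simpa using f.map_rel he.1
      · intro u v huv
        have h3 := hs u v huv
        cases hu : s u
        · cases hv : s v
          · exact absurd (hu.trans hv.symm) h3
          · exact z.2 (u, v) (by simp [sideEdges, huv, hu, hv])
        · cases hv : s v
          · exact (z.2 (v, u) (by simp [sideEdges, huv.symm, hu, hv])).symm
          · exact absurd (hu.trans hv.symm) h3
      · intro f
        ext v
        simp
      · intro z
        ext v
        simp
    rw [h2, one_div, inv_pow]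
    ring

end graph

section main

variable {V : Type} [Fintype V] [DecidableEq V] {H : SimpleGraph V} {s : V → Bool}

/-- exchange of the colours -/
theorem NearSid.flip {K N : ℕ} (h : NearSid H s K N) : NearSid H (fun v => !s v) K N := by
  refine ⟨fun u v huv => by
    have := h.1 u v huv
    cases h1 : s u <;> cases h2 : s v <;> simp_all, ?_⟩
  intro U _ m W m0 m1 hW hW1
  rw [kd_flip, kp_flip]
  exact h.2 U (fun b => m (!b)) (fun x y => W y x) (fun b x => m0 _ _) (fun b => m1 _)
    (fun x y => hW _ _) (fun x y => hW1 _ _)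

/-- the inequality for finite graphs -/
theorem NearSid.graph {K N : ℕ} (h : NearSid H s K N) {U : Type*} [Finite U] [Nonempty U]
    (G : SimpleGraph U) : edgeDensity G ^ K ≤ homDensity H G ^ N := by
  obtain ⟨n, m, W, h1, h2, h3, h4, h5, h6⟩ := exists_kernel G
  have := h.2 (Fin n) m W h1 h2 h3 h4
  rwa [h5, h6 V H s h.1] at this

/-- the two-sided Sidorenko inequality gives the weaker inequality -/
theorem NearSid.of_gsid (h : GSid H s) {a N : ℕ} :
    NearSid H s (N * (sideEdges H s).card + a) N := by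
  refine ⟨h.1, ?_⟩
  intro U _ m W m0 m1 hW hW1
  have key := h.2.2 U m W m0 m1 hW
  have hp0 := kp_nonneg m0 hW
  have hp1 := kp_le_one m0 m1 hW1
  calc kernelMean m W ^ (N * (sideEdges H s).card + a) ≤
        kernelMean m W ^ (N * (sideEdges H s).card) :=
        pow_le_pow_of_le_one hp0 hp1 (Nat.le_add_right _ _)
    _ = (kernelMean m W ^ (sideEdges H s).card) ^ N := by
        rw [← pow_mul, mul_comm]
    _ ≤ _ := pow_le_pow_left₀ (pow_nonneg hp0 _) key N

theorem k2_bip (σ : Bool) (M : ℕ) : ∀ u v, (completeBipartiteGraph (Fin 2) (Fin M)).Adj u v →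
    k2side σ M u ≠ k2side σ M v := by
  rintro (u | u) (v | v) h
  · simp at h
  · simp [k2side]
  · simp [k2side]
  · simp at h

theorem WithK2.flip {N j M : ℕ} (h : WithK2 H s false N j M) :
    WithK2 H (fun v => !s v) true N j M := by
  refine ⟨fun u v huv => by
    have := h.1 u v huv
    cases h1 : s u <;> cases h2 : s v <;> simp_all, ?_⟩
  intro U _ m W m0 m1 hW
  have e : k2side true M = fun v => !k2side false M v := by
    funext v
    rcases v with v | v <;> rfl
  rw [e, kd_flip, kd_flip, kp_flip]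
  exact h.2 U (fun b => m (!b)) (fun x y => W y x) (fun b x => m0 _ _) (fun b => m1 _)
    (fun x y => hW _ _)

theorem WithK2.graph {N j M : ℕ} {σ : Bool} (h : WithK2 H s σ N j M) {U : Type*} [Finite U]
    [Nonempty U] (G : SimpleGraph U) : edgeDensity G ^ (N * Nat.card H.edgeSet + 2 * M * j) ≤
      homDensity H G ^ N * homDensity (completeBipartiteGraph (Fin 2) (Fin M)) G ^ j := by
  obtain ⟨n, m, W, h1, h2, h3, _, h5, h6⟩ := exists_kernel G
  have := h.2 (Fin n) m W h1 h2 h3
  rwa [h5, h6 V H s h.1, h6 _ _ _ (k2_bip σ M)] at this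

/-- **The general inequality**, with `D` on the side `false`. -/
theorem near_core (hs : ∀ u v, H.Adj u v → s u ≠ s v) (A D : Finset V) (hAD : Disjoint A D)
    (hside : ∀ v, s v = false ↔ v ∈ A ∨ v ∈ D) (hD : D.Nonempty) (r : V → ℕ)
    (hr : ∀ d ∈ D, ∀ e ∈ D, r d = r e → d = e)
    (hRI : ∀ d ∈ D, ∃ e ∈ D, ∀ b, H.Adj b d → (∃ f ∈ D, r f < r d ∧ H.Adj b f) →
      r e < r d ∧ H.Adj b e) (F : Finset V) (hF : ∀ b ∈ F, s b = true ∧ ∀ a ∈ A, H.Adj b a)
    {j c n : ℕ} (hj : D.card ≤ ∑ b ∈ F, (na H D b).card + j) (S : Finset V)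
    (hS : ∀ b ∈ S, s b = true ∧ A.card + 1 ≤ (na H (A ∪ D) b).card) {b₀ : V} (hb₀ : b₀ ∈ S)
    (hc : (A ∪ D).card ≤ (na H (A ∪ D) b₀).card + c) (hn : n + 1 ≤ S.card) (hnj : 0 < n + j) :
    NearSid H s ((n + j) * (sideEdges H s).card + c * j) (n + j) ∧
      WithK2 H s false (n + j) j (A ∪ D).card := by
  classical
  have hE : ∀ e ∈ sideEdges H s, s e.1 = false ∧ s e.2 = true := by
    intro e he
    unfold sideEdges at he
    exact (Finset.mem_filter.1 he).2.2
  set M := (A ∪ D).card with hM
  -- the common estimate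
  have est : ∀ (U : Type) [Fintype U] (m : Bool → U → ℝ) (W : U → U → ℝ), (∀ b x, 0 ≤ m b x) →
      (∀ b, ∑ x, m b x = 1) → (∀ x y, 0 ≤ W x y) → 0 < pW m W →
      0 < tW (sideEdges H s) s m W ∧ Base (cW m W) (piW m W) ∧
      ((n : ℝ) + j) * ((sideEdges H s).card * Real.log (pW m W)) -
        j * (gk V (cW m W) (piW m W) M - gk V (cW m W) (piW m W) (na H (A ∪ D) b₀).card) ≤
        ((n : ℝ) + j) * Real.log (tW (sideEdges H s) s m W) := by
    intro U _ m W m0 m1 hW hp
    have hb := base_W m0 hW hp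
    obtain ⟨⟨ν, hν⟩, ⟨ν', hν'⟩⟩ := two_laws hb hs A D hAD hside hD r hr hRI F hF hj S hS hb₀ hn
    obtain ⟨hpos, h1⟩ := log_of_law hE m0 m1 hW hp hν
    obtain ⟨_, h2⟩ := log_of_law hE m0 m1 hW hp hν'
    refine ⟨hpos, hb, ?_⟩
    have h3 : (0 : ℝ) ≤ n := Nat.cast_nonneg _
    have h4 : (0 : ℝ) ≤ j := Nat.cast_nonneg _
    have h5 := mul_le_mul_of_nonneg_left h1 h3
    have h6 := mul_le_mul_of_nonneg_left h2 h4
    rw [← hM] at h6
    nlinarith
  have hnj' : (0 : ℝ) < (n : ℝ) + j := by exact_mod_cast hnj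
  constructor
  · refine ⟨hs, ?_⟩
    intro U _ m W m0 m1 hW hW1
    rw [kd_eq, kp_eq]
    have hp0 : 0 ≤ pW m W := kp_nonneg m0 hW
    have ht0 : 0 ≤ tW (sideEdges H s) s m W := kd_nonneg m0 hW
    rcases hp0.eq_or_lt with hp | hp
    · by_cases h0 : (n + j) * (sideEdges H s).card + c * j = 0
      · have h1 : (sideEdges H s).card = 0 := by
          rcases Nat.mul_eq_zero.1 (Nat.add_eq_zero_iff.1 h0).1 with h | h
          · omega
          · exact h
        have h2 := kd_no_edge (W := W) m1 h1
        rw [kd_eq] at h2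
        rw [h0, h2, one_pow, pow_zero]
      · rw [← hp, zero_pow h0]
        exact pow_nonneg ht0 _
    · obtain ⟨hpos, hb, h1⟩ := est U m W m0 m1 hW hp
      have h2 := gk_diff hb (A ∪ D) (H := H) (b₀ := b₀) hc
      have h3 := inf_W_le m0 m1 hW hW1 hp
      rw [inf_eq hb] at h3
      have h4 : (0 : ℝ) ≤ j := Nat.cast_nonneg _
      have h5 : (0 : ℝ) ≤ c := Nat.cast_nonneg _
      have h6 : gk V (cW m W) (piW m W) M - gk V (cW m W) (piW m W) (na H (A ∪ D) b₀).card ≤
          c * (- Real.log (pW m W)) := h2.trans (mul_le_mul_of_nonneg_left h3 h5)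
      have h7 := mul_le_mul_of_nonneg_left h6 h4
      have h8 : (((n + j) * (sideEdges H s).card + c * j : ℕ) : ℝ) * Real.log (pW m W) ≤
          ((n + j : ℕ) : ℝ) * Real.log (tW (sideEdges H s) s m W) := by
        push_cast
        linarith
      rw [← Real.log_pow, ← Real.log_pow] at h8
      exact (Real.log_le_log_iff (pow_pos hp _) (pow_pos hpos _)).1 h8
  · refine ⟨hs, ?_⟩
    intro U _ m W m0 m1 hW
    rw [← card_sideEdges H s hs, kd_eq, kd_eq, kp_eq]
    have hp0 : 0 ≤ pW m W := kp_nonneg m0 hW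
    have ht0 : 0 ≤ tW (sideEdges H s) s m W := kd_nonneg m0 hW
    set K := completeBipartiteGraph (Fin 2) (Fin M) with hK
    have hk0 : 0 ≤ tW (sideEdges K (k2side false M)) (k2side false M) m W := kd_nonneg m0 hW
    have hM1 : 1 ≤ M := by
      obtain ⟨d, hd⟩ := hD
      exact Finset.card_pos.2 ⟨d, Finset.mem_union_right _ hd⟩
    rcases hp0.eq_or_lt with hp | hp
    · by_cases h0 : (n + j) * (sideEdges H s).card + 2 * M * j = 0
      · obtain ⟨h1, h2⟩ := Nat.add_eq_zero_iff.1 h0
        have h1 : (sideEdges H s).card = 0 := by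
          rcases Nat.mul_eq_zero.1 h1 with h | h
          · omega
          · exact h
        have h3 : j = 0 := by
          rcases Nat.mul_eq_zero.1 h2 with h | h
          · omega
          · exact h
        have h4 := kd_no_edge (W := W) m1 h1
        rw [kd_eq] at h4
        rw [h0, h4, h3, one_pow, pow_zero, pow_zero, one_mul]
      · rw [← hp, zero_pow h0]
        exact mul_nonneg (pow_nonneg ht0 _) (pow_nonneg hk0 _)
    · obtain ⟨hpos, hb, h1⟩ := est U m W m0 m1 hW hp
      obtain ⟨ν, hν⟩ := k2_law hb M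
      have hEK : ∀ e ∈ sideEdges K (k2side false M), k2side false M e.1 = false ∧
          k2side false M e.2 = true := by
        intro e he
        unfold sideEdges at he
        exact (Finset.mem_filter.1 he).2.2
      obtain ⟨hkpos, h2⟩ := log_of_law (side := k2side false M) hEK m0 m1 hW hp (hν : DebtLaw
        (sideEdges K (k2side false M)) (k2side false M) (cW m W) (piW m W) _ ν)
      have hMV : M ≤ Fintype.card V := Finset.card_le_univ _
      have hMK : M ≤ Fintype.card (Fin 2 ⊕ Fin M) := by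
        rw [Fintype.card_sum, Fintype.card_fin, Fintype.card_fin]
        omega
      rw [gk_type (V := V) (V' := Fin 2 ⊕ Fin M) hb hMV hMK] at h2
      have hcK : (sideEdges K (k2side false M)).card = 2 * M := by
        rw [card_sideEdges K _ (k2_bip false M)]
        have h := SimpleGraph.encard_edgeSet_completeBipartiteGraph (W₁ := Fin 2) (W₂ := Fin M)
        have h2 : K.edgeSet.ncard = 2 * M := by
          rw [hK, Set.ncard_def, h]
          simp
        rwa [← Nat.card_coe_set_eq] at h2
      rw [hcK] at h2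
      have h3 : 0 ≤ gk V (cW m W) (piW m W) (na H (A ∪ D) b₀).card :=
        gk_nonneg (V := V) hb _ (Finset.card_le_univ _)
      have h4 : (0 : ℝ) ≤ j := Nat.cast_nonneg _
      have h5 := mul_le_mul_of_nonneg_left h2 h4
      have h6 := mul_nonneg h4 h3
      have h8 : (((n + j) * (sideEdges H s).card + 2 * M * j : ℕ) : ℝ) * Real.log (pW m W) ≤
          ((n + j : ℕ) : ℝ) * Real.log (tW (sideEdges H s) s m W) +
            (j : ℝ) * Real.log (tW (sideEdges K (k2side false M)) (k2side false M) m W) := by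
        push_cast at h5 ⊢
        linarith
      rw [← Real.log_pow, ← Real.log_pow, ← Real.log_pow,
        ← Real.log_mul (pow_pos hpos _).ne' (pow_pos hkpos _).ne'] at h8
      exact (Real.log_le_log_iff (pow_pos hp _) (mul_pos (pow_pos hpos _) (pow_pos hkpos _))).1 h8

end main

end Vale.Agent.P050.H148
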