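import Vale.Agent.P050.H148.NearBound

/-!
Two laws for a bipartite graph: the leaves of one star, and copies of one more leaf. The better one
of the two has small debt.
-/

set_option linter.unusedSectionVars false

namespace Vale.Agent.P050.H148

open Finset Vale.Agent.P050.Lev Vale.Agent.P050.Cart Vale.Agent.P050.Join Vale.Agent.P050.Tmpl
  Vale.Agent.P050.Deg

variable {V U : Type} [Fintype V] [DecidableEq V] [Fintype U]

variable {m : Bool → U → ℝ} {π : U → U → ℝ} {H : SimpleGraph V} {s : V → Bool} {A D : Finset V}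

theorem debtLaw_of_tb {Ω : Type} [Fintype Ω] {T : Finset V → Prop} {C : V → Finset V → Prop}
    {L θ : ℝ} {P : Ω → ℝ} {Z : Ω → V → Option U} (h : TB m π H s univ T C L P Z)
    (hb : Base m π) (hL : L ≤ θ) :
    ∃ ν : (V → U) → ℝ, DebtLaw (sideEdges H s) s m π θ ν := by
  classical
  have hU : Nonempty U := by
    by_contra h
    rw [not_nonempty_iff] at h
    have := hb.m1 false
    rw [Finset.univ_eq_empty, Finset.sum_empty] at this
    exact zero_ne_one this
  obtain ⟨u0⟩ := hU
  let g : Ω → V → U := fun ω v => (Z ω v).getD u0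
  have hsum : ∀ F : (V → U) → ℝ, ∑ z, mar P g z * F z = ∑ ω, P ω * F (g ω) := sum_mar P g
  have hvert : ∀ v : V, ∀ f : U → ℝ, ∑ z, mar P g z * f (z v) = ∑ x, m (s v) x * f x := by
    intro v f
    rw [hsum fun z => f (z v)]
    exact h.vert v (mem_univ _) fun o => f (o.getD u0)
  refine ⟨mar P g, mar_nonneg h.nonneg _, ?_, hvert, ?_, ?_⟩
  · rw [mar_total]
    exact h.total
  · rintro ⟨a, b⟩ he f
    unfold sideEdges at he
    rw [Finset.mem_filter] at he
    obtain ⟨_, hadj, ha, _⟩ := he
    rw [hsum fun z => f (z a) (z b)]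
    exact h.edge a (mem_univ _) b (mem_univ _) hadj ha fun o o' => f (o.getD u0) (o'.getD u0)
  · rw [tc_eq hvert, inf_eq hb, ent_mar, card_sideEdges_eb]
    have h1 : he P Z univ ≤ ent P (fun ω => g ω) := by
      have e1 : he P Z univ = ent P (fun ω => (fun v => some (g ω v) : V → Option U)) := by
        unfold he
        refine ent_ae fun ω h0 => ?_
        funext v
        unfold mz
        rw [if_pos (mem_univ v)]
        obtain ⟨y, hy⟩ := Option.isSome_iff_exists.1 (h.inn ω v (mem_univ v))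
        simp only [g, hy, Option.getD_some]
      rw [e1]
      exact ent_comp_le h.nonneg g fun z v => some (z v)
    have h2 := h.tc
    linarith

/-- the law with copies of one more leaf, on all vertices, with its debt -/
theorem exists_tb (hb : Base m π) (hs : ∀ u v, H.Adj u v → s u ≠ s v) (A D : Finset V)
    (hAD : Disjoint A D) (hside : ∀ v, s v = false ↔ v ∈ A ∨ v ∈ D) (r : V → ℕ)
    (hr : ∀ d ∈ D, ∀ e ∈ D, r d = r e → d = e)
    (hRI : ∀ d ∈ D, ∃ e ∈ D, ∀ b, H.Adj b d → (∃ f ∈ D, r f < r d ∧ H.Adj b f) →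
      r e < r d ∧ H.Adj b e) :
    ∃ (Ω : Type) (_ : Fintype Ω) (P : Ω → ℝ) (Z : Ω → V → Option U),
      TD m π H s A D univ P Z := by
  classical
  have hA : ∀ a ∈ A, s a = false := fun a ha => (hside a).2 (Or.inl ha)
  have hDs : ∀ d ∈ D, s d = false := fun d hd => (hside d).2 (Or.inr hd)
  obtain ⟨Ω, _, P, Z, h⟩ := TD.stage hb hs hAD hA hDs r hr hRI (univ.sup r + 1)
  have hlt : ∀ d, r d < univ.sup r + 1 := fun d =>
    Nat.lt_succ_of_le (Finset.le_sup (mem_univ d))
  obtain ⟨Ω', i', P', Z', h'⟩ := h.addMany hb hs hAD (fun a ha => mem_sn.2 (Or.inl ha)) hDs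
    (univ.filter fun b => s b = true ∧ ¬ ∃ f ∈ D, H.Adj b f) (by
      intro b hb'
      obtain ⟨_, hsb, hnf⟩ := Finset.mem_filter.1 hb'
      refine ⟨?_, hsb, A, Or.inl rfl, ?_, ?_⟩
      · rw [mem_sn]
        rintro (h' | h' | h')
        · rw [hA b h'] at hsb
          exact absurd hsb (by decide)
        · rw [hDs b h'.1] at hsb
          exact absurd hsb (by decide)
        · obtain ⟨_, f, hf, _, hbf⟩ := h'
          exact hnf ⟨f, hf, hbf⟩
      · intro f hf hfA
        exact absurd hf ((Finset.disjoint_left.1 hAD) hfA)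
      · intro x hx hbx
        rcases mem_sn.1 hx with hx | hx | hx
        · exact hx
        · exact absurd ⟨x, hx.1, hbx⟩ hnf
        · have := hs _ _ hbx
          rw [hsb, hx.1] at this
          exact absurd rfl this)
  have e : sn H s A D r (univ.sup r + 1) ∪
      (univ.filter fun b => s b = true ∧ ¬ ∃ f ∈ D, H.Adj b f) = univ := by
    ext v
    rw [Finset.mem_union, mem_sn, Finset.mem_filter]
    simp only [mem_univ, true_and, iff_true]
    cases hv : s v
    · rcases (hside v).1 hv with h1 | h1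
      · exact Or.inl (Or.inl h1)
      · exact Or.inl (Or.inr (Or.inl ⟨h1, hlt v⟩))
    · by_cases h1 : ∃ f ∈ D, H.Adj v f
      · obtain ⟨f, hf, hvf⟩ := h1
        exact Or.inl (Or.inr (Or.inr ⟨rfl, f, hf, hlt f, hvf⟩))
      · exact Or.inr ⟨rfl, h1⟩
  rw [e] at h'
  exact ⟨Ω', i', P', Z', h'⟩

end Vale.Agent.P050.H148
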