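import Vale.Agent.P050.H148.NearGraph
import Vale.Agent.P050.Deg.Prod

/-!
The inequality with copies of one more leaf, for both colours; graphs in which each vertex has at
most two non-neighbours in the other part.
-/

set_option linter.unusedSectionVars false

namespace Vale.Agent.P050.H148

open Finset Vale.Agent.P050.Lev Vale.Agent.P050.Cart Vale.Agent.P050.Join Vale.Agent.P050.Tmpl
  Vale.Agent.P050.Deg Vale.Agent.P050

variable {V : Type} [Fintype V] [DecidableEq V] {H : SimpleGraph V} {s : V → Bool}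

theorem NearSid.zero (hs : ∀ u v, H.Adj u v → s u ≠ s v) : NearSid H s 0 0 :=
  ⟨hs, fun _ _ _ _ _ _ _ _ => by simp⟩

theorem WithK2.zero (hs : ∀ u v, H.Adj u v → s u ≠ s v) {σ : Bool} {M : ℕ} :
    WithK2 H s σ 0 0 M :=
  ⟨hs, fun _ _ _ _ _ _ _ => by simp⟩

/-- `K_{2,M}` satisfies the two-sided Sidorenko inequality -/
theorem k2_gsid (σ : Bool) (M : ℕ) :
    GSid (completeBipartiteGraph (Fin 2) (Fin M)) (k2side σ M) := by
  refine dom_any (k2_bip σ M) (v := Sum.inl 0) ?_
  ext x
  rw [mem_nn]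
  simp only [Finset.notMem_empty, iff_false, not_and, not_not]
  rcases x with x | x
  · intro h
    exact absurd rfl h
  · intro _
    simp

theorem k2_edges (M : ℕ) : Nat.card (completeBipartiteGraph (Fin 2) (Fin M)).edgeSet = 2 * M := by
  have h := SimpleGraph.encard_edgeSet_completeBipartiteGraph (W₁ := Fin 2) (W₂ := Fin M)
  have h2 : (completeBipartiteGraph (Fin 2) (Fin M)).edgeSet.ncard = 2 * M := by
    rw [Set.ncard_def, h]
    simp
  rwa [← Nat.card_coe_set_eq] at h2

theorem WithK2.of_gsid (h : GSid H s) {σ : Bool} {N j M : ℕ} : WithK2 H s σ N j M := by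
  refine ⟨h.1, ?_⟩
  intro U _ m W m0 m1 hW
  have h1 := h.2.2 U m W m0 m1 hW
  have h2 := (k2_gsid σ M).2.2 U m W m0 m1 hW
  rw [card_sideEdges H s h.1] at h1
  rw [card_sideEdges _ _ (k2_bip σ M), k2_edges] at h2
  have hp0 : 0 ≤ kernelMean m W := kp_nonneg m0 hW
  have h3 : (kernelMean m W ^ Nat.card H.edgeSet) ^ N ≤ kernelDensity H s m W ^ N :=
    pow_le_pow_left₀ (pow_nonneg hp0 _) h1 N
  have h4 : (kernelMean m W ^ (2 * M)) ^ j ≤
      kernelDensity (completeBipartiteGraph (Fin 2) (Fin M)) (k2side σ M) m W ^ j :=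
    pow_le_pow_left₀ (pow_nonneg hp0 _) h2 j
  calc kernelMean m W ^ (N * Nat.card H.edgeSet + 2 * M * j) =
        (kernelMean m W ^ Nat.card H.edgeSet) ^ N * (kernelMean m W ^ (2 * M)) ^ j := by
        rw [← pow_mul, ← pow_mul, ← pow_add, mul_comm N]
    _ ≤ _ := mul_le_mul h3 h4 (pow_nonneg (pow_nonneg hp0 _) _)
        (pow_nonneg (kd_nonneg m0 hW) _)

theorem near_false (hs : ∀ u v, H.Adj u v → s u ≠ s v) (D : Finset V)
    (hDs : ∀ d ∈ D, s d = false) (hD : D.Nonempty) (r : V → ℕ)
    (hr : ∀ d ∈ D, ∀ e ∈ D, r d = r e → d = e)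
    (hRI : ∀ d ∈ D, ∃ e ∈ D, ∀ b, H.Adj b d → (∃ f ∈ D, r f < r d ∧ H.Adj b f) →
      r e < r d ∧ H.Adj b e) (F : Finset V)
    (hF : ∀ b ∈ F, s b ≠ false ∧ ∀ a, s a = false → a ∉ D → H.Adj b a) {j : ℕ}
    (hj : D.card ≤ ∑ b ∈ F, Nat.card {d : V // d ∈ D ∧ H.Adj b d} + j) {c : ℕ} {b₁ : V}
    (hb₁ : s b₁ ≠ false) (hc : (nn H s b₁).card ≤ c) {n : ℕ}
    (hn : n + 1 ≤ (univ.filter fun b => s b ≠ false ∧ (nn H s b).card < D.card).card) :
    NearSid H s ((n + j) * (sideEdges H s).card + c * j) (n + j) ∧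
      WithK2 H s false (n + j) j (univ.filter fun v => s v = false).card := by
  classical
  rcases Nat.eq_zero_or_pos (n + j) with h0 | hnj
  · have hn0 : n = 0 := by omega
    have hj0 : j = 0 := by omega
    subst hn0 hj0
    exact ⟨by simpa using NearSid.zero hs, WithK2.zero hs⟩
  have htr : ∀ b : V, s b ≠ false ↔ s b = true := fun b => by cases s b <;> decide
  set X : Finset V := univ.filter fun v => s v = false with hX
  have memX : ∀ v, v ∈ X ↔ s v = false := fun v => by rw [hX, Finset.mem_filter]; simp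
  have hDX : D ⊆ X := fun d hd => (memX d).2 (hDs d hd)
  have hU : X \ D ∪ D = X := Finset.sdiff_union_of_subset hDX
  have hcA : (X \ D).card + D.card = X.card := by
    rw [Finset.card_sdiff_of_subset hDX]
    have := Finset.card_le_card hDX
    omega
  have hna : ∀ b, s b = true → (na H X b).card + (nn H s b).card = X.card := by
    intro b hb
    rw [← Finset.card_union_of_disjoint]
    · congr 1
      ext x
      rw [Finset.mem_union, mem_na, mem_nn, memX, hb]
      constructor
      · rintro (h | h)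
        · exact h.1
        · cases hx : s x
          · rfl
          · exact absurd hx h.1
      · intro hx
        by_cases h : H.Adj b x
        · exact Or.inl ⟨hx, h⟩
        · exact Or.inr ⟨by rw [hx]; decide, h⟩
    · rw [Finset.disjoint_left]
      intro x h1 h2
      exact (mem_nn.1 h2).2 (mem_na.1 h1).2
  set S : Finset V := univ.filter fun b => s b ≠ false ∧ (nn H s b).card < D.card with hS
  have memS : ∀ b, b ∈ S ↔ s b = true ∧ (nn H s b).card < D.card := fun b => by
    rw [hS, Finset.mem_filter, htr]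
    simp
  obtain ⟨b₀, hb₀, hc₀⟩ : ∃ b₀ ∈ S, (nn H s b₀).card ≤ c := by
    by_cases h1 : b₁ ∈ S
    · exact ⟨b₁, h1, hc⟩
    · have h2 : D.card ≤ (nn H s b₁).card := by
        by_contra h3
        exact h1 ((memS _).2 ⟨(htr _).1 hb₁, not_le.1 h3⟩)
      have h3 : 0 < S.card := by omega
      obtain ⟨b₂, hb₂⟩ := Finset.card_pos.1 h3
      have := ((memS _).1 hb₂).2
      exact ⟨b₂, hb₂, by omega⟩
  have e1 : ∀ b, (na H D b).card = Nat.card {d : V // d ∈ D ∧ H.Adj b d} := by
    intro b
    exact (Nat.subtype_card _ fun x => mem_na).symm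
  have key : NearSid H s ((n + j) * (sideEdges H s).card + c * j) (n + j) ∧
      WithK2 H s false (n + j) j (X \ D ∪ D).card := by
   refine near_core hs (X \ D) D Finset.sdiff_disjoint ?_ hD r hr hRI F ?_ (j := j) ?_ S ?_ hb₀ ?_
    hn hnj
   · intro v
     rw [← memX, ← Finset.mem_union, hU]
   · intro b hb
     refine ⟨(htr b).1 (hF b hb).1, fun a ha => ?_⟩
     rw [Finset.mem_sdiff, memX] at ha
     exact (hF b hb).2 a ha.1 ha.2
   · simp only [e1]
     exact hj
   · intro b hb
     obtain ⟨h1, h2⟩ := (memS b).1 hb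
     refine ⟨h1, ?_⟩
     rw [hU]
     have := hna b h1
     omega
   · rw [hU]
     have := hna b₀ ((memS _).1 hb₀).1
     omega
  rw [hU] at key
  exact key

/-- **Copies of one more leaf.** -/
theorem near_colour (hs : ∀ u v, H.Adj u v → s u ≠ s v) (σ : Bool) (D : Finset V)
    (hDs : ∀ d ∈ D, s d = σ) (hD : D.Nonempty) (r : V → ℕ)
    (hr : ∀ d ∈ D, ∀ e ∈ D, r d = r e → d = e)
    (hRI : ∀ d ∈ D, ∃ e ∈ D, ∀ b, H.Adj b d → (∃ f ∈ D, r f < r d ∧ H.Adj b f) →
      r e < r d ∧ H.Adj b e) (F : Finset V)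
    (hF : ∀ b ∈ F, s b ≠ σ ∧ ∀ a, s a = σ → a ∉ D → H.Adj b a) {j : ℕ}
    (hj : D.card ≤ ∑ b ∈ F, Nat.card {d : V // d ∈ D ∧ H.Adj b d} + j) {c : ℕ} {b₁ : V}
    (hb₁ : s b₁ ≠ σ) (hc : (nn H s b₁).card ≤ c) {n : ℕ}
    (hn : n + 1 ≤ (univ.filter fun b => s b ≠ σ ∧ (nn H s b).card < D.card).card) :
    NearSid H s ((n + j) * Nat.card H.edgeSet + c * j) (n + j) ∧
      WithK2 H s σ (n + j) j (univ.filter fun v => s v = σ).card := by
  classical
  cases σ with
  | false =>
    rw [← card_sideEdges H s hs]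
    exact near_false hs D hDs hD r hr hRI F hF hj hb₁ hc hn
  | true =>
    have e : ∀ u, ((!s u) = false) ↔ (s u = true) := fun u => by cases s u <;> decide
    have e' : ∀ u, ((!s u) ≠ false) ↔ (s u ≠ true) := fun u => by cases s u <;> decide
    have hs' : ∀ u v, H.Adj u v → (fun v => !s v) u ≠ (fun v => !s v) v := fun u v huv h' =>
      hs u v huv (by revert h'; cases h1 : s u <;> cases h2 : s v <;> simp_all)
    have enn : ∀ b, nn H (fun v => !s v) b = nn H s b := by
      intro b
      ext x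
      rw [mem_nn, mem_nn]
      refine and_congr ?_ Iff.rfl
      cases s x <;> cases s b <;> decide
    have h := near_false (H := H) (s := fun v => !s v) hs' D
      (fun d hd => (e d).2 (hDs d hd)) hD r hr hRI F
      (fun b hb => ⟨(e' b).2 (hF b hb).1, fun a ha => (hF b hb).2 a ((e a).1 ha)⟩) hj
      ((e' b₁).2 hb₁) (c := c) (by rw [enn]; exact hc) (n := n) (by
        simp only [enn, e']
        exact hn)
    rw [card_sideEdges H _ hs'] at h
    obtain ⟨h3, h4⟩ := h
    have h5 := NearSid.flip h3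
    have h6 := WithK2.flip h4
    simp only [Bool.not_not] at h5 h6
    refine ⟨h5, ?_⟩
    have e2 : (univ.filter fun v => (!s v) = false) = univ.filter fun v => s v = true :=
      Finset.filter_congr fun v _ => e v
    rw [e2] at h6
    exact h6

end Vale.Agent.P050.H148
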