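import Vale.Agent.P050.H148.NearTen

/-!
The statements for the hand-in.
-/

set_option linter.unusedSectionVars false

namespace Vale.Agent.P050.H148

open Finset Vale.Agent.P050.Lev Vale.Agent.P050.Cart Vale.Agent.P050.Join Vale.Agent.P050.Tmpl
  Vale.Agent.P050.Deg Vale.Agent.P050

variable {V : Type} [Fintype V] [DecidableEq V] {H : SimpleGraph V} {s : V → Bool}

theorem card_nn {σ : Bool} {b : V} (hb : s b ≠ σ) :
    (nn H s b).card = Nat.card {a : V // s a = σ ∧ ¬ H.Adj b a} := by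
  refine (Nat.subtype_card _ fun a => ?_).symm
  rw [mem_nn]
  refine and_congr ?_ Iff.rfl
  revert hb
  cases s a <;> cases s b <;> cases σ <;> decide

theorem general (hs : ∀ u v, H.Adj u v → s u ≠ s v) (σ : Bool) (D : Finset V)
    (hDs : ∀ d ∈ D, s d = σ) (hD : D.Nonempty) (r : V → ℕ)
    (hr : ∀ d ∈ D, ∀ e ∈ D, r d = r e → d = e)
    (hRI : ∀ d ∈ D, ∃ e ∈ D, ∀ b, H.Adj b d → (∃ f ∈ D, r f < r d ∧ H.Adj b f) →
      r e < r d ∧ H.Adj b e) (F : Finset V)
    (hF : ∀ b ∈ F, s b ≠ σ ∧ ∀ a, s a = σ → a ∉ D → H.Adj b a) (j : ℕ)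
    (hj : D.card ≤ ∑ b ∈ F, Nat.card {d : V // d ∈ D ∧ H.Adj b d} + j) (c : ℕ) (b₁ : V)
    (hb₁ : s b₁ ≠ σ) (hc : Nat.card {a : V // s a = σ ∧ ¬ H.Adj b₁ a} ≤ c) (n : ℕ)
    (hn : n + 1 ≤ Nat.card {b : V // s b ≠ σ ∧
      Nat.card {a : V // s a = σ ∧ ¬ H.Adj b a} < D.card}) :
    NearSid H s ((n + j) * Nat.card H.edgeSet + c * j) (n + j) ∧
      WithK2 H s σ (n + j) j (Nat.card {v : V // s v = σ}) := by
  classical
  have e1 : Nat.card {v : V // s v = σ} = (univ.filter fun v => s v = σ).card :=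
    Nat.subtype_card _ fun v => by simp
  rw [e1]
  refine near_colour hs σ D hDs hD r hr hRI F hF hj hb₁ (c := c) (by rw [card_nn hb₁]; exact hc)
    (hn.trans (le_of_eq ?_))
  refine Nat.subtype_card _ fun b => ?_
  rw [Finset.mem_filter]
  constructor
  · rintro ⟨_, h1, h2⟩
    exact ⟨h1, by rw [← card_nn h1]; exact h2⟩
  · rintro ⟨h1, h2⟩
    exact ⟨mem_univ _, h1, by rw [card_nn h1]; exact h2⟩

theorem two (hs : ∀ u v, H.Adj u v → s u ≠ s v)
    (h2 : ∀ v, Nat.card {u : V // s u ≠ s v ∧ ¬ H.Adj v u} ≤ 2) (σ : Bool) :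
    NearSid H s (Nat.card {v : V // s v = σ} * Nat.card H.edgeSet + 2)
      (Nat.card {v : V // s v = σ}) ∧
      WithK2 H s (!σ) (Nat.card {v : V // s v = σ}) 1 (Nat.card {v : V // s v = !σ}) := by
  classical
  have e1 : Nat.card {v : V // s v = !σ} = (univ.filter fun v => s v = !σ).card :=
    Nat.subtype_card _ fun v => by simp
  rw [e1]
  refine near_two hs (fun v => ?_) σ (Nat.subtype_card _ fun v => by simp)
  rw [← Nat.subtype_card (p := fun u => s u ≠ s v ∧ ¬ H.Adj v u) (nn H s v) fun u => mem_nn]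
  exact h2 v

end Vale.Agent.P050.H148
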