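import Vale.Agent.P050.H148.NearTwo
import Vale.Agent.P050.H148.Defs

/-!
`K_{5,5}` minus a cycle of length 10.
-/

set_option linter.unusedSectionVars false

namespace Vale.Agent.P050.H148

open Finset Vale.Agent.P050.Lev Vale.Agent.P050.Cart Vale.Agent.P050.Join Vale.Agent.P050.Tmpl
  Vale.Agent.P050.Deg Vale.Agent.P050

/-- the two parts -/
def s10 (v : ZMod 10) : Bool := decide (v.val % 2 = 1)

theorem adj10 (u v : ZMod 10) : K55minusC10.Adj u v ↔
    (u - v).val % 2 = 1 ∧ u ≠ v + 1 ∧ v ≠ u + 1 := Iff.rfl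

theorem near_ten : NearSid K55minusC10 s10 77 5 ∧ WithK2 K55minusC10 s10 false 5 1 5 ∧
    Nat.card K55minusC10.edgeSet = 15 := by
  classical
  have hs : ∀ u v, K55minusC10.Adj u v → s10 u ≠ s10 v := by
    simp only [adj10]
    decide
  have h2 : ∀ v, (nn K55minusC10 s10 v).card ≤ 2 := by
    intro v
    have h1 : nn K55minusC10 s10 v ⊆ {v + 1, v - 1} := by
      intro u hu
      rw [mem_nn, adj10] at hu
      rw [Finset.mem_insert, Finset.mem_singleton]
      have key : ∀ u v : ZMod 10, (s10 u ≠ s10 v ∧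
          ¬ ((v - u).val % 2 = 1 ∧ v ≠ u + 1 ∧ u ≠ v + 1)) → u = v + 1 ∨ u = v - 1 := by
        decide
      exact key u v hu
    exact (Finset.card_le_card h1).trans Finset.card_le_two
  have hN : 5 = (univ.filter fun b : ZMod 10 => s10 b = true).card := by decide
  have he : Nat.card K55minusC10.edgeSet = 15 := by
    rw [← card_sideEdges K55minusC10 s10 hs]
    have h1 : sideEdges K55minusC10 s10 = (univ : Finset (ZMod 10 × ZMod 10)).filter fun e =>
        ((e.1 - e.2).val % 2 = 1 ∧ e.1 ≠ e.2 + 1 ∧ e.2 ≠ e.1 + 1) ∧ s10 e.1 = false ∧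
          s10 e.2 = true := by
      unfold sideEdges
      refine Finset.filter_congr fun e _ => ?_
      rw [adj10]
    rw [h1]
    decide
  have key := near_two hs h2 true hN
  rw [he] at key
  have e5 : (univ.filter fun v : ZMod 10 => s10 v = !true).card = 5 := by decide
  rw [e5] at key
  exact ⟨key.1, key.2, he⟩

end Vale.Agent.P050.H148
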