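import Vale.Agent.P050.H148.NearMain

/-!
Bipartite graphs in which each vertex has at most two non-neighbours in the other part.
-/

set_option linter.unusedSectionVars false

namespace Vale.Agent.P050.H148

open Finset Vale.Agent.P050.Lev Vale.Agent.P050.Cart Vale.Agent.P050.Join Vale.Agent.P050.Tmpl
  Vale.Agent.P050.Deg Vale.Agent.P050

variable {V : Type} [Fintype V] [DecidableEq V] {H : SimpleGraph V} {s : V → Bool}

/-- a path with five vertices in the bipartite complement -/
theorem near_path (hs : ∀ u v, H.Adj u v → s u ≠ s v) {e d d' y y' : V} {σ : Bool} (se : s e = σ)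
    (h2 : ∀ b, s b ≠ σ → (nn H s b).card ≤ 2) (hed : e ≠ d)
    (hed' : e ≠ d') (hdd : d ≠ d') (hy : nn H s y = {e, d}) (hy' : nn H s y' = {e, d'})
    (hne : nn H s e = {y, y'}) {N : ℕ} (hN : N = (univ.filter fun b => s b ≠ σ).card) :
    NearSid H s (N * Nat.card H.edgeSet + 2) N ∧
      WithK2 H s σ N 1 (univ.filter fun v => s v = σ).card := by
  classical
  have ene : ∀ {u v : V}, u ∈ nn H s v → s u ≠ s v := fun h => (mem_nn.1 h).1
  have eq_of : ∀ {u v w : V}, s u ≠ s v → s w ≠ s v → s u = s w := by
    intro u v w h1 h3
    revert h1 h3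
    cases s u <;> cases s v <;> cases s w <;> decide
  have yne : y ∈ nn H s e := by rw [hne]; simp
  have y'ne : y' ∈ nn H s e := by rw [hne]; simp
  have sy : s y ≠ σ := by rw [← se]; exact ene yne
  have sy' : s y' ≠ σ := by rw [← se]; exact ene y'ne
  have dn : d ∈ nn H s y := by rw [hy]; simp
  have en : e ∈ nn H s y := by rw [hy]; simp
  have dn' : d' ∈ nn H s y' := by rw [hy']; simp
  have sd : s d = σ := by rw [← se]; exact eq_of (ene dn) (ene en)
  have sd' : s d' = σ := by
    have e'n : e ∈ nn H s y' := by rw [hy']; simp
    rw [← se]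
    exact eq_of (ene dn') (ene e'n)
  have hyy : y ≠ y' := by
    rintro rfl
    rw [hy] at hy'
    have h1 : d' ∈ ({e, d} : Finset V) := by rw [hy']; simp
    rw [Finset.mem_insert, Finset.mem_singleton] at h1
    rcases h1 with h1 | h1
    · exact hed' h1.symm
    · exact hdd h1.symm
  have ady : H.Adj y d' := by
    by_contra h
    have h1 : d' ∈ nn H s y := mem_nn.2 ⟨by rw [sd']; exact fun h' => sy h'.symm, h⟩
    rw [hy, Finset.mem_insert, Finset.mem_singleton] at h1
    rcases h1 with h1 | h1
    · exact hed' h1.symm
    · exact hdd h1.symm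
  have ady' : H.Adj y' d := by
    by_contra h
    have h1 : d ∈ nn H s y' := mem_nn.2 ⟨by rw [sd]; exact fun h' => sy' h'.symm, h⟩
    rw [hy', Finset.mem_insert, Finset.mem_singleton] at h1
    rcases h1 with h1 | h1
    · exact hed h1.symm
    · exact hdd h1
  set D : Finset V := {d, e, d'} with hD
  have memD : ∀ v, v ∈ D ↔ v = d ∨ v = e ∨ v = d' := fun v => by rw [hD]; simp
  have cD : D.card = 3 := Finset.card_eq_three.2 ⟨d, e, d', hed.symm, hdd, hed', rfl⟩
  let r : V → ℕ := fun v => if v = d then 0 else if v = e then 1 else 2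
  have rd : r d = 0 := if_pos rfl
  have re : r e = 1 := by
    show (if e = d then 0 else if e = e then 1 else 2) = 1
    rw [if_neg hed, if_pos rfl]
  have rd' : r d' = 2 := by
    show (if d' = d then 0 else if d' = e then 1 else 2) = 2
    rw [if_neg hdd.symm, if_neg hed'.symm]
  have hpos : 0 < (univ.filter fun b => s b ≠ σ).card := Finset.card_pos.2 ⟨y, by
    rw [Finset.mem_filter]
    exact ⟨mem_univ _, sy⟩⟩
  have key := near_colour (H := H) (s := s) hs σ D (by
      intro x hx
      rcases (memD x).1 hx with rfl | rfl | rfl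
      · exact sd
      · exact se
      · exact sd') ⟨d, (memD d).2 (Or.inl rfl)⟩ r (by
      intro x hx x' hx' hxx
      rcases (memD x).1 hx with rfl | rfl | rfl <;> rcases (memD x').1 hx' with rfl | rfl | rfl
      · rfl
      · rw [rd, re] at hxx
        exact absurd hxx (by decide)
      · rw [rd, rd'] at hxx
        exact absurd hxx (by decide)
      · rw [rd, re] at hxx
        exact absurd hxx (by decide)
      · rfl
      · rw [re, rd'] at hxx
        exact absurd hxx (by decide)
      · rw [rd, rd'] at hxx
        exact absurd hxx (by decide)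
      · rw [re, rd'] at hxx
        exact absurd hxx (by decide)
      · rfl) (by
      intro x hx
      rcases (memD x).1 hx with rfl | rfl | rfl
      · refine ⟨x, hx, ?_⟩
        rintro b _ ⟨f, _, hrf, _⟩
        rw [rd] at hrf
        exact absurd hrf (Nat.not_lt_zero _)
      · refine ⟨d, (memD d).2 (Or.inl rfl), ?_⟩
        rintro b _ ⟨f, hf, hrf, hbf⟩
        rcases (memD f).1 hf with rfl | rfl | rfl
        · exact ⟨hrf, hbf⟩
        · exact absurd hrf (lt_irrefl _)
        · rw [re, rd'] at hrf
          exact absurd hrf (by decide)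
      · refine ⟨e, (memD e).2 (Or.inr (Or.inl rfl)), ?_⟩
        rintro b hbx ⟨f, hf, hrf, hbf⟩
        refine ⟨by rw [re, rd']; decide, ?_⟩
        by_contra hbe
        have sb : s b ≠ σ := by
          rw [← sd']
          exact hs _ _ hbx
        have h3 : b ∈ nn H s e := mem_nn.2 ⟨by rw [se]; exact sb, fun h' => hbe h'.symm⟩
        rw [hne, Finset.mem_insert, Finset.mem_singleton] at h3
        rcases h3 with rfl | rfl
        · rcases (memD f).1 hf with rfl | rfl | rfl
          · exact (mem_nn.1 dn).2 hbf
          · exact hbe hbf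
          · exact absurd hrf (lt_irrefl _)
        · exact (mem_nn.1 dn').2 hbx) {y, y'} (by
      intro b hb
      rw [Finset.mem_insert, Finset.mem_singleton] at hb
      rcases hb with rfl | rfl
      · refine ⟨sy, fun a ha haD => ?_⟩
        by_contra h
        have h1 : a ∈ nn H s b := mem_nn.2 ⟨by rw [ha]; exact fun h' => sy h'.symm, h⟩
        rw [hy, Finset.mem_insert, Finset.mem_singleton] at h1
        rw [memD] at haD
        tauto
      · refine ⟨sy', fun a ha haD => ?_⟩
        by_contra h
        have h1 : a ∈ nn H s b := mem_nn.2 ⟨by rw [ha]; exact fun h' => sy' h'.symm, h⟩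
        rw [hy', Finset.mem_insert, Finset.mem_singleton] at h1
        rw [memD] at haD
        tauto) (j := 1) (by
      rw [Finset.sum_pair hyy, cD]
      have p1 : 1 ≤ Nat.card {x : V // x ∈ D ∧ H.Adj y x} := by
        have : Nonempty {x : V // x ∈ D ∧ H.Adj y x} :=
          ⟨⟨d', (memD d').2 (Or.inr (Or.inr rfl)), ady⟩⟩
        exact Nat.card_pos
      have p2 : 1 ≤ Nat.card {x : V // x ∈ D ∧ H.Adj y' x} := by
        have : Nonempty {x : V // x ∈ D ∧ H.Adj y' x} :=
          ⟨⟨d, (memD d).2 (Or.inl rfl), ady'⟩⟩
        exact Nat.card_pos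
      omega) (c := 2) (b₁ := y) sy (h2 y sy) (n := N - 1) (by
      have e1 : (univ.filter fun b => s b ≠ σ ∧ (nn H s b).card < D.card) =
          univ.filter fun b => s b ≠ σ := by
        ext b
        rw [Finset.mem_filter, Finset.mem_filter, cD]
        refine and_congr Iff.rfl ⟨fun h => h.1, fun h => ⟨h, ?_⟩⟩
        have := h2 b h
        omega
      rw [e1, ← hN]
      omega)
  have e2 : N - 1 + 1 = N := by omega
  rw [e2] at key
  exact key

/-- one vertex of codegree two, whose co-neighbours have codegree two -/
theorem near_local (hs : ∀ u v, H.Adj u v → s u ≠ s v) {e : V} {σ : Bool} (se : s e = σ)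
    (h2 : ∀ b, s b ≠ σ → (nn H s b).card ≤ 2) (he : (nn H s e).card = 2)
    (hb : ∀ b ∈ nn H s e, (nn H s b).card = 2) {N : ℕ}
    (hN : N = (univ.filter fun b => s b ≠ σ).card) :
    (NearSid H s (N * Nat.card H.edgeSet + 2) N ∧
      WithK2 H s σ N 1 (univ.filter fun v => s v = σ).card) ∨
      ∃ d y y' : V, e ≠ d ∧ nn H s e = {y, y'} ∧ nn H s y = {e, d} ∧ nn H s y' = {e, d} := by
  classical
  obtain ⟨y, y', hyy, hne⟩ := Finset.card_eq_two.1 he
  have other : ∀ b ∈ nn H s e, ∃ d, e ≠ d ∧ nn H s b = {e, d} := by
    intro b hbe
    obtain ⟨p, q, hpq, hpq'⟩ := Finset.card_eq_two.1 (hb b hbe)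
    have h1 : e ∈ nn H s b := nn_symm.1 hbe
    rw [hpq', Finset.mem_insert, Finset.mem_singleton] at h1
    rcases h1 with rfl | rfl
    · exact ⟨q, hpq, hpq'⟩
    · exact ⟨p, hpq.symm, by rw [hpq', Finset.pair_comm]⟩
  obtain ⟨d, hed, hy⟩ := other y (by rw [hne]; simp)
  obtain ⟨d', hed', hy'⟩ := other y' (by rw [hne]; simp)
  by_cases hdd : d = d'
  · subst hdd
    exact Or.inr ⟨d, y, y', hed, hne, hy, hy'⟩
  · exact Or.inl (near_path hs se h2 hed hed' hdd hy hy' hne hN)

/-- **At most two non-neighbours.** -/
theorem near_two (hs : ∀ u v, H.Adj u v → s u ≠ s v) (h2 : ∀ v, (nn H s v).card ≤ 2) (σ : Bool)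
    {N : ℕ} (hN : N = (univ.filter fun b => s b = σ).card) :
    NearSid H s (N * Nat.card H.edgeSet + 2) N ∧
      WithK2 H s (!σ) N 1 (univ.filter fun v => s v = !σ).card := by
  classical
  by_cases hG : GSid H s
  · have := NearSid.of_gsid hG (a := 2) (N := N)
    rw [card_sideEdges H s hs] at this
    exact ⟨this, WithK2.of_gsid hG⟩
  by_contra hcon
  have hN' : N = (univ.filter fun b => s b ≠ !σ).card := by
    rw [hN]
    congr 1
    ext b
    rw [Finset.mem_filter, Finset.mem_filter]
    refine and_congr Iff.rfl ?_
    cases s b <;> cases σ <;> decide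
  -- the small closed sets
  have loc : ∀ e : V, s e = (!σ) → (nn H s e).card = 2 →
      (∀ b ∈ nn H s e, (nn H s b).card = 2) →
      ∃ d y y' : V, e ≠ d ∧ nn H s e = {y, y'} ∧ nn H s y = {e, d} ∧ nn H s y' = {e, d} := by
    intro e se he hb
    rcases near_local hs se (fun b _ => h2 b) he hb hN' with h | h
    · exact absurd h hcon
    · exact h
  have clo : ∀ e d y y' : V, nn H s e = {y, y'} → nn H s y = {e, d} → nn H s y' = {e, d} →
      nn H s d = {y, y'} → ∀ u ∈ ({e, d, y, y'} : Finset V), ∀ v ∈ nn H s u,
        v ∈ ({e, d, y, y'} : Finset V) := by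
    intro e d y y' h1 h3 h4 h5 u hu v hv
    simp only [Finset.mem_insert, Finset.mem_singleton] at hu ⊢
    rcases hu with rfl | rfl | rfl | rfl
    · rw [h1, Finset.mem_insert, Finset.mem_singleton] at hv
      tauto
    · rw [h5, Finset.mem_insert, Finset.mem_singleton] at hv
      tauto
    · rw [h3, Finset.mem_insert, Finset.mem_singleton] at hv
      tauto
    · rw [h4, Finset.mem_insert, Finset.mem_singleton] at hv
      tauto
  have yyne : ∀ e y y' : V, (nn H s e).card = 2 → nn H s e = {y, y'} → y ≠ y' := by
    intro e y y' h1 h3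
    rintro rfl
    rw [h3, Finset.pair_eq_singleton, Finset.card_singleton] at h1
    exact absurd h1 (by decide)
  have dnn : ∀ e d y y' : V, (nn H s e).card = 2 → nn H s e = {y, y'} → nn H s y = {e, d} →
      nn H s y' = {e, d} → nn H s d = {y, y'} := by
    intro e d y y' h1 h3 h4 h5
    have hyy := yyne e y y' h1 h3
    symm
    refine Finset.eq_of_subset_of_card_le ?_ ?_
    · intro x hx
      rw [Finset.mem_insert, Finset.mem_singleton] at hx
      rw [nn_symm]
      rcases hx with rfl | rfl
      · rw [h4]; simp
      · rw [h5]; simp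
    · rw [Finset.card_pair hyy]
      exact h2 d
  have c0 : ∀ v, (nn H s v).Nonempty := fun v => by
    by_contra h'
    exact hG (dom_any hs (Finset.not_nonempty_iff_eq_empty.1 h'))
  have nbne : ∀ {b c : Bool}, b ≠ c → b = !c := fun {b c} h => by
    revert h
    cases b <;> cases c <;> decide
  by_cases hall : ∀ v, (nn H s v).card = 2
  · -- the complement is 2-regular
    obtain ⟨e, f, se, hef⟩ : ∃ e f, s e = (!σ) ∧ H.Adj e f := by
      by_contra h'
      push Not at h'
      refine hG (gsid_of_no_edge fun x z hxz => ?_)
      by_cases hx : s x = !σ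
      · exact h' x z hx hxz
      · have h3 := hs x z hxz
        refine h' z x ?_ hxz.symm
        revert h3 hx
        cases s x <;> cases s z <;> cases σ <;> decide
    obtain ⟨d, y, y', hed, hne, hy, hy'⟩ := loc e se (hall e) fun b _ => hall b
    have hd := dnn e d y y' (hall e) hne hy hy'
    obtain ⟨e', he'⟩ := c0 f
    have hfy : f ∉ ({y, y'} : Finset V) := by
      rw [← hne]
      exact fun h => (mem_nn.1 h).2 hef
    have hfe' : f ∈ nn H s e' := nn_symm.1 he'
    have se' : s e' = !σ := by
      have h3 := (mem_nn.1 he').1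
      have h4 := hs _ _ hef
      rw [← se]
      revert h3 h4
      cases s e <;> cases s f <;> cases s e' <;> decide
    obtain ⟨d₂, y₂, y₂', hed₂, hne₂, hy₂, hy₂'⟩ := loc e' se' (hall e') fun b _ => hall b
    have hd₂ := dnn e' d₂ y₂ y₂' (hall e') hne₂ hy₂ hy₂'
    have chain : ∀ e d y y' : V, nn H s e = {y, y'} → nn H s y = {e, d} → nn H s y' = {e, d} →
        nn H s d = {y, y'} → Chain H s ((bcompl H s).connectedComponentMk e).supp := by
      intro e d y y' h1 h3 h4 h5 a b a' b' ha ha' haa _ hb'
      left
      rw [← mem_nn'] at hb' ⊢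
      have hin := supp_sub ((bcompl H s).connectedComponentMk e) {e, d, y, y'}
        (clo e d y y' h1 h3 h4 h5) (a := e) rfl (by simp)
      have sy : s y ≠ s e := (mem_nn.1 (show y ∈ nn H s e by rw [h1]; simp)).1
      have sy' : s y' ≠ s e := (mem_nn.1 (show y' ∈ nn H s e by rw [h1]; simp)).1
      have sd : s y ≠ s d := (mem_nn.1 (show y ∈ nn H s d by rw [h5]; simp)).1
      have sd' : s y' ≠ s d := (mem_nn.1 (show y' ∈ nn H s d by rw [h5]; simp)).1
      have m1 := hin a ha
      have m2 := hin a' ha'
      simp only [Finset.mem_insert, Finset.mem_singleton] at m1 m2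
      have : nn H s a = nn H s a' := by
        rcases m1 with rfl | rfl | rfl | rfl <;> rcases m2 with rfl | rfl | rfl | rfl
        all_goals first
          | rfl
          | rw [h1, h5]
          | rw [h5, h1]
          | rw [h3, h4]
          | rw [h4, h3]
          | exact absurd haa sy
          | exact absurd haa sy'
          | exact absurd haa sd
          | exact absurd haa sd'
          | exact absurd haa.symm sy
          | exact absurd haa.symm sy'
          | exact absurd haa.symm sd
          | exact absurd haa.symm sd'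
      rw [this]
      exact hb'
    refine hG (two_comp hs _ _ ?_ (chain e d y y' hne hy hy' hd)
      (chain e' d₂ y₂ y₂' hne₂ hy₂ hy₂' hd₂))
    intro hcc
    have hin := supp_sub ((bcompl H s).connectedComponentMk e) {e, d, y, y'}
      (clo e d y y' hne hy hy' hd) (a := e) rfl (by simp) e' (by rw [hcc]; rfl)
    simp only [Finset.mem_insert, Finset.mem_singleton] at hin
    rcases hin with h | h | h | h
    · rw [h, hne] at hfe'
      exact hfy hfe'
    · rw [h, hd] at hfe'
      exact hfy hfe'
    · have h3 := (mem_nn.1 (show y ∈ nn H s e by rw [hne]; simp)).1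
      rw [← h, se', se] at h3
      exact h3 rfl
    · have h3 := (mem_nn.1 (show y' ∈ nn H s e by rw [hne]; simp)).1
      rw [← h, se', se] at h3
      exact h3 rfl
  · -- one vertex of codegree one on each side
    push Not at hall
    obtain ⟨v₀, hv₀⟩ := hall
    set S : Bool → ℕ := fun b => ∑ a ∈ univ.filter (fun a => s a = b), (nn H s a).card with hS
    set k : Bool → ℕ := fun b => (univ.filter fun v => s v = b).card with hk
    have hSe : ∀ b, S b + Nat.card H.edgeSet = k false * k true := by
      intro b
      cases b
      · exact missing hs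
      · have h1 := missing (flip_hs hs)
        have e1 : ∀ b : Bool, (univ.filter fun v => (!s v) = b) =
            univ.filter fun v => s v = !b := by
          intro b
          refine Finset.filter_congr fun v _ => ?_
          cases s v <;> cases b <;> decide
        rw [e1, e1] at h1
        simp only [Bool.not_false, Bool.not_true, nn_flip] at h1
        rw [mul_comm]
        exact h1
    have hV : Fintype.card V = k false + k true := by
      have h1 := Finset.card_filter_add_card_filter_not (s := (univ : Finset V))
        (fun w => s w = false)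
      have h3 : (univ.filter fun w => ¬ s w = false) = univ.filter fun w => s w = true := by
        refine Finset.filter_congr fun w _ => ?_
        cases s w <;> decide
      rw [h3, Finset.card_univ] at h1
      exact h1.symm
    have up : ∀ b, S b ≤ 2 * k b := by
      intro b
      have h1 := Finset.sum_le_sum fun a (_ : a ∈ univ.filter (fun a => s a = b)) => h2 a
      rw [Finset.sum_const, smul_eq_mul, mul_comm] at h1
      exact h1
    have up' : S (s v₀) + 1 ≤ 2 * k (s v₀) := by
      have h1 : ∀ a ∈ univ.filter (fun a => s a = s v₀),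
          (nn H s a).card + (if a = v₀ then 1 else 0) ≤ 2 := by
        intro a _
        have := h2 a
        split_ifs with h
        · subst h
          omega
        · omega
      have h3 := Finset.sum_le_sum h1
      rw [Finset.sum_const, smul_eq_mul, Finset.sum_add_distrib, Finset.sum_ite_eq',
        if_pos (by rw [Finset.mem_filter]; exact ⟨mem_univ _, rfl⟩), mul_comm] at h3
      exact h3
    have low : ∀ b, 2 * k b ≤ S b + 1 := by
      intro b
      by_cases hex : ∃ w, s w = b ∧ (nn H s w).card ≤ 1
      · obtain ⟨w, sw, hw⟩ := hex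
        have h1 : ∀ x ∈ univ.filter (fun a => s a = b), 2 ≤ (nn H s x).card +
            (if x = w then 1 else 0) := by
          intro x hx
          have sx := (Finset.mem_filter.1 hx).2
          split_ifs with hxw
          · have := Finset.card_pos.2 (c0 x)
            omega
          · by_contra h'
            exact hG (two_few hs (Ne.symm hxw) (by rw [sw, sx]) hw (by omega))
        have h3 := Finset.sum_le_sum h1
        rw [Finset.sum_const, smul_eq_mul, Finset.sum_add_distrib, Finset.sum_ite_eq',
          if_pos (by rw [Finset.mem_filter]; exact ⟨mem_univ _, sw⟩)] at h3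
        simp only [hS, hk]
        omega
      · push Not at hex
        have h1 : ∀ x ∈ univ.filter (fun a => s a = b), 2 ≤ (nn H s x).card := by
          intro x hx
          have := hex x (Finset.mem_filter.1 hx).2
          omega
        have h3 := Finset.sum_le_sum h1
        rw [Finset.sum_const, smul_eq_mul] at h3
        simp only [hS, hk]
        omega
    have hdense : (univ.filter fun v => s v = false).card *
        (univ.filter fun v => s v = true).card + 1 ≤ Nat.card H.edgeSet + Fintype.card V := by
      have h4 := low false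
      have h5 := low true
      have h6 := hSe false
      have h7 := hSe true
      have h8 := up false
      have h9 := up true
      have e1 : (univ.filter fun v => s v = false).card = k false := rfl
      have e2 : (univ.filter fun v => s v = true).card = k true := rfl
      rw [e1, e2, hV]
      cases hb : s v₀
      · rw [hb] at up'
        omega
      · rw [hb] at up'
        omega
    by_cases hK : (∃! c : (bcompl H s).ConnectedComponent, Nat.card c.supp = 2) ∧
        (∃ c : (bcompl H s).ConnectedComponent, Nat.card c.supp ≠ 2) ∧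
        ∀ c : (bcompl H s).ConnectedComponent, Nat.card c.supp = 2 ∨ (10 ≤ Nat.card c.supp ∧
          ∀ v ∈ c.supp, Nat.card {u : V // (bcompl H s).Adj v u} = 2)
    · obtain ⟨_, ⟨c, hc⟩, hK3⟩ := hK
      obtain ⟨hc10, hreg⟩ := (hK3 c).resolve_left hc
      have hreg' : ∀ v ∈ c.supp, (nn H s v).card = 2 := fun v hv => by
        rw [← hreg v hv]
        exact (Nat.subtype_card _ fun u => mem_nn').symm
      obtain ⟨w, hw⟩ := c.nonempty_supp
      obtain ⟨e, hec, se⟩ : ∃ e ∈ c.supp, s e = !σ := by
        by_cases sw : s w = !σ
        · exact ⟨w, hw, sw⟩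
        · obtain ⟨x, hx⟩ := c0 w
          refine ⟨x, comp_clo c w hw x hx, ?_⟩
          have h3 := (mem_nn.1 hx).1
          revert h3 sw
          cases s x <;> cases s w <;> cases σ <;> decide
      obtain ⟨d, y, y', hed, hne, hy, hy'⟩ := loc e se (hreg' e hec) fun b hb =>
        hreg' b (comp_clo c e hec b hb)
      have hd := dnn e d y y' (hreg' e hec) hne hy hy'
      have hin := supp_sub c {e, d, y, y'} (clo e d y y' hne hy hy' hd) hec (by simp)
      have h3 : Nat.card c.supp = (univ.filter fun a => a ∈ c.supp).card :=
        Nat.subtype_card _ fun v => by simp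
      have h4 : (univ.filter fun a => a ∈ c.supp) ⊆ ({e, d, y, y'} : Finset V) := fun x hx =>
        hin x (Finset.mem_filter.1 hx).2
      have h5 := Finset.card_le_card h4
      have h6 : ({e, d, y, y'} : Finset V).card ≤ 4 := Finset.card_le_four
      omega
    · exact hG (dense_prod hs hdense hK)

end Vale.Agent.P050.H148
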