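import Vale.Agent.P050.H148.Cyc

set_option linter.all false

/-!
The negative part of the spectrum of the ladder operator.
-/

namespace Vale.Agent.P050.H148

open Finset

/-- Jensen's inequality for powers with weights of total mass at most one -/
theorem jensen_sub {T : Type*} [Fintype T] (w c : T → ℝ) (hw : ∀ t, 0 ≤ w t)
    (hw1 : ∑ t, w t ≤ 1) (hc : ∀ t, 0 ≤ c t) {k : ℕ} (hk : k ≠ 0) :
    (∑ t, w t * c t) ^ k ≤ ∑ t, w t * c t ^ k := by
  have h := Real.pow_arith_mean_le_arith_mean_pow (univ : Finset (Option T))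
    (fun o => o.elim (1 - ∑ t, w t) w) (fun o => o.elim 0 c) ?_ ?_ ?_ k
  · simp only [Fintype.sum_option, Option.elim_none, Option.elim_some, mul_zero, zero_add,
      zero_pow hk] at h
    exact h
  · rintro (_ | t) _
    · exact sub_nonneg.mpr hw1
    · exact hw t
  · simp [Fintype.sum_option]
  · rintro (_ | t) _
    · exact le_refl _
    · exact hc t

section lad

variable {X : Type*} [Fintype X] [DecidableEq X]

/-- the ladder operator -/
noncomputable def lad (W : X → X → ℝ) (a b : X × X) : ℝ :=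
  Real.sqrt (W a.1 a.2) * Real.sqrt (W b.1 b.2) * (W a.1 b.2 * W b.1 a.2)

theorem lad_symm (W : X → X → ℝ) (a b : X × X) : lad W a b = lad W b a := by
  unfold lad; ring

variable {W : X → X → ℝ} {t : X → ℝ} {u : X → X → ℝ}

theorem quad_swap (hW : Eig W t u) (g : X × X → ℝ) :
    ∑ a, ∑ b, g a * (W a.1 b.2 * W b.1 a.2) * g b =
      ∑ i, ∑ j, t i * t j * ((∑ a, g a * (u i a.1 * u j a.2)) *
        (∑ a, g a * (u j a.1 * u i a.2))) := by
  have h1 : ∀ a b : X × X, g a * (W a.1 b.2 * W b.1 a.2) * g b =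
      ∑ i, ∑ j, t i * t j * ((g a * (u i a.1 * u j a.2)) * (g b * (u j b.1 * u i b.2))) := by
    intro a b
    rw [hW.eq a.1 b.2, hW.eq b.1 a.2, sum_mul_sum, mul_sum, sum_mul]
    refine sum_congr rfl fun i _ => ?_
    rw [mul_sum, sum_mul]
    refine sum_congr rfl fun j _ => by ring
  have h2 : ∀ i j : X, t i * t j * ((∑ a, g a * (u i a.1 * u j a.2)) *
        (∑ a, g a * (u j a.1 * u i a.2))) = ∑ a, ∑ b,
        t i * t j * ((g a * (u i a.1 * u j a.2)) * (g b * (u j b.1 * u i b.2))) := by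
    intro i j
    rw [sum_mul_sum, mul_sum]
    refine sum_congr rfl fun a _ => ?_
    rw [mul_sum]
  simp only [h1, h2]
  calc ∑ a, ∑ b, ∑ i, ∑ j, t i * t j * ((g a * (u i a.1 * u j a.2)) * (g b * (u j b.1 * u i b.2)))
      = ∑ a, ∑ i, ∑ b, ∑ j, t i * t j *
          ((g a * (u i a.1 * u j a.2)) * (g b * (u j b.1 * u i b.2))) :=
        sum_congr rfl fun a _ => sum_comm
    _ = ∑ i, ∑ a, ∑ b, ∑ j, t i * t j *
          ((g a * (u i a.1 * u j a.2)) * (g b * (u j b.1 * u i b.2))) := sum_comm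
    _ = ∑ i, ∑ a, ∑ j, ∑ b, t i * t j *
          ((g a * (u i a.1 * u j a.2)) * (g b * (u j b.1 * u i b.2))) :=
        sum_congr rfl fun i _ => sum_congr rfl fun a _ => sum_comm
    _ = ∑ i, ∑ j, ∑ a, ∑ b, t i * t j *
          ((g a * (u i a.1 * u j a.2)) * (g b * (u j b.1 * u i b.2))) :=
        sum_congr rfl fun i _ => sum_comm

theorem parseval_pair (hW : Eig W t u) (g : X × X → ℝ) :
    ∑ i, ∑ j, (∑ a, g a * (u i a.1 * u j a.2)) ^ 2 = ∑ a, g a ^ 2 := by
  have h1 : ∀ i j, ∑ a, g a * (u i a.1 * u j a.2) = ∑ y, u j y * ∑ x, u i x * g (x, y) := by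
    intro i j
    rw [Fintype.sum_prod_type, sum_comm]
    refine sum_congr rfl fun y _ => ?_
    rw [mul_sum]
    refine sum_congr rfl fun x _ => by ring
  simp only [h1, hW.parseval]
  rw [sum_comm]
  simp only [hW.parseval]
  rw [Fintype.sum_prod_type, sum_comm]

/-- the sign, with value `1` at `0` -/
noncomputable def sg (x : ℝ) : ℝ := if x < 0 then -1 else 1

theorem sg_sq (x : ℝ) : sg x ^ 2 = 1 := by
  unfold sg; split_ifs <;> norm_num

theorem abs_mul_sg (x : ℝ) : |x| * sg x = x := by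
  unfold sg
  split_ifs with h
  · rw [abs_of_neg h]; ring
  · rw [abs_of_nonneg (not_lt.mp h)]; ring

/-- the antisymmetric combinations -/
noncomputable def acomb (t : X → ℝ) (u : X → X → ℝ) (i j : X) (a : X × X) : ℝ :=
  if i = j then 0 else
    (u i a.1 * u j a.2 - sg (t i * t j) * (u j a.1 * u i a.2)) / 2

theorem acomb_sq (hW : Eig W t u) (i j : X) :
    ∑ a, acomb t u i j a ^ 2 ≤ if i = j then 0 else 1 / 2 := by
  unfold acomb
  split_ifs with h
  · simp
  · have h1 : ∀ i j i' j' : X, ∑ a : X × X, (u i a.1 * u j a.2) * (u i' a.1 * u j' a.2) =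
        (if i = i' then 1 else 0) * (if j = j' then 1 else 0) := by
      intro i j i' j'
      rw [← hW.orth, ← hW.orth, sum_mul_sum, Fintype.sum_prod_type]
      refine sum_congr rfl fun x _ => sum_congr rfl fun y _ => by ring
    set s : ℝ := sg (t i * t j) with hs
    have hs1 : s ^ 2 = 1 := sg_sq _
    have h2 : ∀ a : X × X, ((u i a.1 * u j a.2 - s * (u j a.1 * u i a.2)) / 2) ^ 2 =
        1 / 4 * ((u i a.1 * u j a.2) * (u i a.1 * u j a.2)) + s ^ 2 / 4 *
          ((u j a.1 * u i a.2) * (u j a.1 * u i a.2)) - s / 2 *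
          ((u i a.1 * u j a.2) * (u j a.1 * u i a.2)) := by
      intro a; ring
    simp only [h2, sum_add_distrib, sum_sub_distrib, ← mul_sum, h1]
    simp only [if_true, if_neg h]
    linarith

variable {l : X × X → ℝ} {f : X × X → X × X → ℝ}

theorem neg_le (h0 : ∀ x y, 0 ≤ W x y) (hW : Eig W t u) (hL : Eig (lad W) l f) (p : X × X) :
    -l p ≤ ∑ i, ∑ j, (∑ a, f p a * (Real.sqrt (W a.1 a.2) * acomb t u i j a)) ^ 2 *
      |t i * t j| := by
  set g : X × X → ℝ := fun a => f p a * Real.sqrt (W a.1 a.2) with hg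
  set G : X → X → ℝ := fun i j => ∑ a, g a * (u i a.1 * u j a.2) with hG
  have h1 : l p = ∑ i, ∑ j, t i * t j * (G i j * G j i) := by
    rw [← hL.self p, hG, ← quad_swap hW]
    refine sum_congr rfl fun a _ => sum_congr rfl fun b _ => ?_
    simp only [hg, lad]; ring
  rw [h1, ← sum_neg_distrib]
  refine sum_le_sum fun i _ => ?_
  rw [← sum_neg_distrib]
  refine sum_le_sum fun j _ => ?_
  by_cases hij : i = j
  · subst hij
    have h2 : 0 ≤ t i * t i * (G i i * G i i) := by
      have := sq_nonneg (t i * G i i); nlinarith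
    have h3 : (0 : ℝ) ≤ (∑ a, f p a * (Real.sqrt (W a.1 a.2) * acomb t u i i a)) ^ 2 *
      |t i * t i| := by positivity
    linarith
  · set s : ℝ := sg (t i * t j) with hs
    have h2 : ∑ a, f p a * (Real.sqrt (W a.1 a.2) * acomb t u i j a) =
        (G i j - s * G j i) / 2 := by
      simp only [hG, acomb, if_neg hij]
      rw [mul_sum, ← sum_sub_distrib, sum_div]
      refine sum_congr rfl fun a _ => ?_
      simp only [hg, ← hs]; ring
    rw [h2]
    have h3 : |t i * t j| * s = t i * t j := abs_mul_sg _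
    have h4 : |t i * t j| * s ^ 2 = |t i * t j| := by rw [sg_sq, mul_one]
    have h5 : 0 ≤ |t i * t j| * (G i j + s * G j i) ^ 2 := by positivity
    have h6 : |t i * t j| * (G i j + s * G j i) ^ 2 =
        |t i * t j| * (G i j - s * G j i) ^ 2 + 4 * (|t i * t j| * s) * (G i j * G j i) := by ring
    rw [h6, h3] at h5
    nlinarith

theorem weight_le (h0 : ∀ x y, 0 ≤ W x y) (h1 : ∀ x y, W x y ≤ 1) (hW : Eig W t u)
    (hL : Eig (lad W) l f) (p : X × X) :
    ∑ i, ∑ j, (∑ a, f p a * (Real.sqrt (W a.1 a.2) * acomb t u i j a)) ^ 2 ≤ 1 := by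
  set g : X × X → ℝ := fun a => f p a * Real.sqrt (W a.1 a.2) with hg
  set G : X → X → ℝ := fun i j => ∑ a, g a * (u i a.1 * u j a.2) with hG
  have h2 : ∀ i j, (∑ a, f p a * (Real.sqrt (W a.1 a.2) * acomb t u i j a)) ^ 2 ≤
      (G i j ^ 2 + G j i ^ 2) / 2 := by
    intro i j
    by_cases hij : i = j
    · subst hij
      simp only [acomb, if_true, mul_zero, sum_const_zero]
      have h := sq_nonneg (G i i)
      linarith
    · set s : ℝ := sg (t i * t j) with hs
      have h2 : ∑ a, f p a * (Real.sqrt (W a.1 a.2) * acomb t u i j a) =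
          (G i j - s * G j i) / 2 := by
        simp only [hG, acomb, if_neg hij]
        rw [mul_sum, ← sum_sub_distrib, sum_div]
        refine sum_congr rfl fun a _ => ?_
        simp only [hg, ← hs]; ring
      rw [h2]
      have hs1 : s ^ 2 = 1 := sg_sq _
      have h3 : 0 ≤ (G i j + s * G j i) ^ 2 := sq_nonneg _
      have h4 : s ^ 2 * G j i ^ 2 = G j i ^ 2 := by rw [hs1, one_mul]
      nlinarith
  have h3 : ∑ i, ∑ j, (G i j ^ 2 + G j i ^ 2) / 2 = ∑ i, ∑ j, G i j ^ 2 := by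
    have : ∑ i, ∑ j, G j i ^ 2 = ∑ i, ∑ j, G i j ^ 2 := sum_comm
    simp only [add_div, sum_add_distrib]
    simp only [← sum_div, this]
    ring
  have h4 : ∑ i, ∑ j, G i j ^ 2 = ∑ a, g a ^ 2 := parseval_pair hW g
  have h5 : ∑ a, g a ^ 2 ≤ ∑ a, f p a * f p a := by
    refine sum_le_sum fun a _ => ?_
    simp only [hg, mul_pow, Real.sq_sqrt (h0 _ _)]
    nlinarith [sq_nonneg (f p a), h1 a.1 a.2]
  rw [hL.orth, if_pos rfl] at h5
  calc _ ≤ ∑ i, ∑ j, (G i j ^ 2 + G j i ^ 2) / 2 :=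
        sum_le_sum fun i _ => sum_le_sum fun j _ => h2 i j
    _ ≤ 1 := by rw [h3, h4]; exact h5

theorem neg_part (h0 : ∀ x y, 0 ≤ W x y) (h1 : ∀ x y, W x y ≤ 1) (hW : Eig W t u)
    (hL : Eig (lad W) l f) {k : ℕ} (hk : k ≠ 0) :
    ∑ p, max (-l p) 0 ^ k ≤ 1 / 2 * ∑ i, ∑ j, if i = j then 0 else |t i * t j| ^ k := by
  have h2 : ∀ p, max (-l p) 0 ^ k ≤ ∑ i, ∑ j,
      (∑ a, f p a * (Real.sqrt (W a.1 a.2) * acomb t u i j a)) ^ 2 * |t i * t j| ^ k := by
    intro p
    have h3 : max (-l p) 0 ≤ ∑ q : X × X,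
        (∑ a, f p a * (Real.sqrt (W a.1 a.2) * acomb t u q.1 q.2 a)) ^ 2 * |t q.1 * t q.2| := by
      refine max_le ?_ (sum_nonneg fun q _ => by positivity)
      rw [Fintype.sum_prod_type]
      exact neg_le h0 hW hL p
    have h4 := pow_le_pow_left₀ (le_max_right _ _) h3 k
    refine h4.trans ?_
    refine (jensen_sub _ _ (fun q => sq_nonneg _) ?_ (fun q => abs_nonneg _) hk).trans ?_
    · rw [Fintype.sum_prod_type]
      exact weight_le h0 h1 hW hL p
    · rw [Fintype.sum_prod_type]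
  calc ∑ p, max (-l p) 0 ^ k ≤ ∑ p, ∑ i, ∑ j,
      (∑ a, f p a * (Real.sqrt (W a.1 a.2) * acomb t u i j a)) ^ 2 * |t i * t j| ^ k :=
        sum_le_sum fun p _ => h2 p
    _ = ∑ i, ∑ j, (∑ p, (∑ a, f p a * (Real.sqrt (W a.1 a.2) * acomb t u i j a)) ^ 2) *
          |t i * t j| ^ k := by
        rw [sum_comm]
        refine sum_congr rfl fun i _ => ?_
        rw [sum_comm]
        refine sum_congr rfl fun j _ => ?_
        rw [sum_mul]
    _ ≤ ∑ i, ∑ j, (if i = j then 0 else 1 / 2) * |t i * t j| ^ k := by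
        refine sum_le_sum fun i _ => sum_le_sum fun j _ => ?_
        refine mul_le_mul_of_nonneg_right ?_ (by positivity)
        rw [hL.parseval]
        refine le_trans ?_ (acomb_sq hW i j)
        refine sum_le_sum fun a _ => ?_
        rw [mul_pow, Real.sq_sqrt (h0 _ _)]
        nlinarith [sq_nonneg (acomb t u i j a), h1 a.1 a.2]
    _ = 1 / 2 * ∑ i, ∑ j, if i = j then 0 else |t i * t j| ^ k := by
        rw [mul_sum]
        refine sum_congr rfl fun i _ => ?_
        rw [mul_sum]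
        refine sum_congr rfl fun j _ => ?_
        split_ifs <;> ring

end lad

end Vale.Agent.P050.H148
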