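import Vale.Agent.P050.MathlibUsed
import Mathlib.Analysis.Matrix.Spectrum

set_option linter.all false

/-!
Diagonalisation of a real symmetric matrix in terms of finite sums.
-/

namespace Vale.Agent.P050.H148

open Finset

section spec

variable {I : Type*} [Fintype I] [DecidableEq I]

/-- `l`, `u` are the eigenvalues and an orthonormal basis of eigenvectors of `M` -/
structure Eig (M : I → I → ℝ) (l : I → ℝ) (u : I → I → ℝ) : Prop where
  orth : ∀ i j, ∑ e, u i e * u j e = if i = j then 1 else 0
  comp : ∀ e e', ∑ i, u i e * u i e' = if e = e' then 1 else 0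
  eq : ∀ e e', M e e' = ∑ i, l i * (u i e * u i e')

theorem exists_eig (M : I → I → ℝ) (hM : ∀ i j, M i j = M j i) :
    ∃ (l : I → ℝ) (u : I → I → ℝ), Eig M l u := by
  classical
  set A : Matrix I I ℝ := Matrix.of M with hAdef
  have hA : A.IsHermitian := by
    ext i j
    simp only [Matrix.conjTranspose_apply, hAdef, Matrix.of_apply, star_trivial]
    exact hM j i
  set U : Matrix I I ℝ := (hA.eigenvectorUnitary : Matrix I I ℝ) with hU
  have h1 : U * star U = 1 := Unitary.coe_mul_star_self hA.eigenvectorUnitary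
  have h2 : star U * U = 1 := Unitary.coe_star_mul_self hA.eigenvectorUnitary
  have h3 : A = U * Matrix.diagonal (hA.eigenvalues) * star U := by
    have := hA.spectral_theorem
    rw [Unitary.conjStarAlgAut_apply] at this
    exact this
  refine ⟨hA.eigenvalues, fun i e => U e i, ⟨?_, ?_, ?_⟩⟩
  · intro i j
    have := congrFun (congrFun h2 i) j
    rw [Matrix.mul_apply, Matrix.one_apply] at this
    simpa [Matrix.star_apply] using this
  · intro e e'
    have := congrFun (congrFun h1 e) e'
    rw [Matrix.mul_apply, Matrix.one_apply] at this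
    simpa [Matrix.star_apply] using this
  · intro e e'
    have h4 : M e e' = A e e' := rfl
    rw [h4]
    conv_lhs => rw [h3]
    rw [Matrix.mul_apply]
    refine sum_congr rfl fun i _ => ?_
    rw [Matrix.mul_diagonal]
    simp only [Matrix.star_apply, star_trivial]
    ring

variable {M : I → I → ℝ} {l : I → ℝ} {u : I → I → ℝ}

/-- Parseval -/
theorem Eig.parseval (h : Eig M l u) (g : I → ℝ) :
    ∑ i, (∑ e, u i e * g e) ^ 2 = ∑ e, g e ^ 2 := by
  have h1 : ∀ i, (∑ e, u i e * g e) ^ 2 = ∑ e, ∑ e', (u i e * u i e') * (g e * g e') := by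
    intro i
    rw [sq, sum_mul_sum]
    refine sum_congr rfl fun e _ => sum_congr rfl fun e' _ => by ring
  simp only [h1]
  rw [sum_comm]
  refine sum_congr rfl fun e _ => ?_
  rw [sum_comm]
  simp only [← sum_mul, h.comp]
  simp [sq]

/-- quadratic form -/
theorem Eig.quad (h : Eig M l u) (g : I → ℝ) :
    ∑ e, ∑ e', g e * M e e' * g e' = ∑ i, l i * (∑ e, u i e * g e) ^ 2 := by
  have h1 : ∀ i, l i * (∑ e, u i e * g e) ^ 2
      = ∑ e, ∑ e', l i * ((u i e * u i e') * (g e * g e')) := by
    intro i
    rw [sq, sum_mul_sum, mul_sum]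
    refine sum_congr rfl fun e _ => ?_
    rw [mul_sum]
    refine sum_congr rfl fun e' _ => by ring
  simp only [h1]
  conv_rhs => rw [sum_comm]
  refine sum_congr rfl fun e _ => ?_
  rw [sum_comm]
  refine sum_congr rfl fun e' _ => ?_
  rw [h.eq, mul_sum, sum_mul]
  refine sum_congr rfl fun i _ => by ring

/-- the eigenvector equation -/
theorem Eig.apply (h : Eig M l u) (i e : I) : ∑ e', M e e' * u i e' = l i * u i e := by
  have h1 : ∀ e', M e e' * u i e' = ∑ j, l j * u j e * (u j e' * u i e') := by
    intro e'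
    rw [h.eq, sum_mul]
    refine sum_congr rfl fun j _ => by ring
  simp only [h1]
  rw [sum_comm]
  simp only [← mul_sum, h.orth]
  simp

/-- the quadratic form at an eigenvector -/
theorem Eig.self (h : Eig M l u) (i : I) : ∑ e, ∑ e', u i e * M e e' * u i e' = l i := by
  have h1 : ∀ e, ∑ e', u i e * M e e' * u i e' = l i * (u i e * u i e) := by
    intro e
    simp only [mul_assoc]
    rw [← mul_sum, h.apply]; ring
  simp only [h1]
  rw [← mul_sum, h.orth]; simp

/-- the quadratic form is at most the largest eigenvalue -/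
theorem Eig.quad_le (h : Eig M l u) {L : ℝ} (hL : ∀ i, l i ≤ L) (g : I → ℝ) :
    ∑ e, ∑ e', g e * M e e' * g e' ≤ L * ∑ e, g e ^ 2 := by
  rw [h.quad, ← h.parseval, mul_sum]
  exact sum_le_sum fun i _ => mul_le_mul_of_nonneg_right (hL i) (sq_nonneg _)

/-- sum of the squares -/
theorem Eig.sum_sq (h : Eig M l u) : ∑ i, l i ^ 2 = ∑ e, ∑ e', M e e' ^ 2 := by
  have h1 : ∀ e, ∑ e', M e e' ^ 2 = ∑ i, l i ^ 2 * u i e ^ 2 := by
    intro e
    have h2 : ∀ e', M e e' ^ 2 = ∑ i, l i * u i e * (M e e' * u i e') := by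
      intro e'
      rw [sq]
      nth_rewrite 2 [h.eq]
      rw [mul_sum]
      refine sum_congr rfl fun i _ => by ring
    simp only [h2]
    rw [sum_comm]
    refine sum_congr rfl fun i _ => ?_
    rw [← mul_sum, h.apply]; ring
  simp only [h1]
  rw [sum_comm]
  refine sum_congr rfl fun i _ => ?_
  rw [← mul_sum]
  have := h.orth i i
  simp only [if_true, ← sq] at this
  rw [this, mul_one]

end spec

end Vale.Agent.P050.H148
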